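import Vale.Agent.N361.Ladder

/-!
# The bootstrap for fields down to `n ^ (δ - 3)`
-/

set_option linter.all false

namespace Vale.Agent.N361

open Finset Matrix Filter Topology Vale.Agent.P361 Vale.Agent.P361.LRO Vale.Agent.P361.LRO.GenS
  Vale.Agent.P361.LRO.S3 Vale.Agent.P361.LRO.S3S _root_.P361.LRO Vale.Agent.P361.LRO.Ind
  Vale.Agent.P361.LRO.Ind3 Vale.Agent.P361.LRO.S3S.BootS

noncomputable section

/-- The network block with the threshold `n ^ (δ - 3)`. -/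
def KappaT (δ : ℝ) (s : ℕ) : Prop :=
  ∃ c2 c3 : ℝ, 0 < c2 ∧ 0 < c3 ∧ ∀ C7 Lam : ℝ, 0 < C7 → 0 < Lam → ∃ β0 : ℝ, ∀ β : ℝ, β0 ≤ β →
    ∃ n0 : ℕ, ∀ (n : ℕ) [NeZero n], n0 ≤ n → Odd n → ∀ M : ℕ, ∀ a : ℕ,
    Real.sqrt β ≤ (3 : ℝ) ^ a → (3 : ℝ) ^ a ≤ β ^ (3 / 4 : ℝ) →
    ∀ K : ℝ, 1 ≤ K → K ≤ Lam * β ^ (3 / 2 : ℝ) → K ≤ c2 * β * 3 ^ a →
    ∀ g0 : ℝ, (n : ℝ) ^ (δ - 3) ≤ g0 → g0 ≤ 1 → BH3S n s M β (C7 * β ^ (-(3 / 2) : ℝ)) g0 →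
    ∀ g : Tor n → ℝ, Fam n g0 (β ^ (-(9 / 2) : ℝ)) g → ∀ x : Tor n,
      ∃ᶠ N : ℕ in atTop,
        c3 * K ≤ kap (edgesS n s M) β N (hS fun y => g y / (s * β)) K (cubeS n s x (3 ^ a))

theorem kappa {δ : ℝ} (hδ : 0 < δ) (hδ1 : δ ≤ 1) {s : ℕ} (hs : 0 < s) : KappaT δ s := by
  have hL : LocalStmt3S s := localStmt3S_of hs (ccgeS_of hs (longTr s)) Ind3.deltaStmt
  have hlo := lowStmt3S hs
  have hsr : (1 : ℝ) ≤ s := by exact_mod_cast hs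
  obtain ⟨c1, hc1, HL⟩ := hL
  obtain ⟨e0, C5, c3, c4, he0, hC5, hc3, hc4, H3⟩ := block hδ hδ1 c1 hc1
  refine ⟨min 1 (1 / C5), c3, lt_min one_pos (by positivity), hc3, fun C7 Lam hC7 hLam => ?_⟩
  obtain ⟨βL, HL⟩ := HL C7 Lam hC7 hLam
  have hlim : ∀ (a : ℝ), 0 < a → ∀ B : ℝ, ∀ᶠ β : ℝ in atTop, B ≤ β ^ a := fun a ha B =>
    (tendsto_rpow_atTop ha).eventually_ge_atTop B
  obtain ⟨M, hM⟩ : ∃ M : ℝ, M = 2 * Real.exp (Lam * C7 / 2) * Real.sqrt C7 := ⟨_, rfl⟩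
  have hall : ∀ᶠ β : ℝ in atTop, βL ≤ β ∧ 1 ≤ β ∧ (3:ℝ) ^ e0 ≤ β ^ (1 / 2 : ℝ) ∧
      Lam ≤ β ^ (3 / 2 : ℝ) ∧ 2 * M ≤ β ^ (3 / 4 : ℝ) ∧ 3 * M / c4 ≤ β ^ (1 / 4 : ℝ) := by
    filter_upwards [eventually_ge_atTop βL, eventually_ge_atTop (1:ℝ),
      hlim (1 / 2) (by norm_num) ((3:ℝ) ^ e0), hlim (3 / 2) (by norm_num) Lam,
      hlim (3 / 4) (by norm_num) (2 * M), hlim (1 / 4) (by norm_num) (3 * M / c4)]
      with β a1 a2 a3 a4 a5 a6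
    exact ⟨a1, a2, a3, a4, a5, a6⟩
  obtain ⟨β0, hβ0⟩ := eventually_atTop.1 hall
  refine ⟨β0, fun β hβ => ?_⟩
  obtain ⟨b1, b2, b3, b4, b5, b6⟩ := hβ0 β hβ
  have hβp : 0 < β := by linarith
  have hsβ : 1 ≤ s * β := by nlinarith
  obtain ⟨e, he1, he2, hemin⟩ := cell_exists b2
  have hp : ∀ s : ℝ, 0 < β ^ s := fun s => Real.rpow_pos_of_pos hβp s
  have hee : e0 ≤ e := by
    have h1 : (3:ℝ) ^ e0 ≤ 3 ^ e := b3.trans he1
    exact (pow_le_pow_iff_right₀ (by norm_num : (1:ℝ) < 3)).1 h1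
  obtain ⟨n3, H3⟩ := H3 e hee
  obtain ⟨nL, HL⟩ := HL β b1
  refine ⟨max n3 (max nL (max 2 ⌈β⌉₊)), ?_⟩
  intro n _ hn _ Mm a ha1' ha2' K hK1 hKL hKc g0 hg0 hg01 hBH g hg x
  have ha1 : β ^ (1 / 2 : ℝ) ≤ (3 : ℝ) ^ a := by rw [← Real.sqrt_eq_rpow]; exact ha1'
  have ha2 : (3 : ℝ) ^ a ≤ β := by
    refine ha2'.trans ?_
    have h1 : β ^ (3 / 4 : ℝ) ≤ β ^ (1 : ℝ) := Real.rpow_le_rpow_of_exponent_le b2 (by norm_num)
    rwa [Real.rpow_one] at h1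
  have hn3 : n3 ≤ n := (le_max_left _ _).trans hn
  have hnL : nL ≤ n := (le_max_left _ _).trans ((le_max_right _ _).trans hn)
  have hn2 : 2 ≤ n := (le_max_left _ _).trans ((le_max_right _ _).trans
    ((le_max_right _ _).trans hn))
  have hnβ : β ≤ n := by
    have : ⌈β⌉₊ ≤ n := (le_max_right _ _).trans ((le_max_right _ _).trans
      ((le_max_right _ _).trans hn))
    exact (Nat.le_ceil β).trans (by exact_mod_cast this)
  have hn0 : (0 : ℝ) < n := by linarith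
  have hg0p : 0 < g0 := (Real.rpow_pos_of_pos hn0 _).trans_le hg0
  have hKp : 0 < K := by linarith
  -- scales
  have hea : e ≤ a := hemin a ha1
  obtain ⟨ha2e, hK27, hK27a, hK9, hK3a, hlam⟩ := scales b2 b4 he1 ha1 ha2 hC5 hKL hKc
  have hcard : (cube n x (3 ^ a)).card = (3 ^ a) ^ 3 := by
    refine Vale.Agent.P361.LRO.Ind.card_cube x (3 ^ a) ?_
    have : ((3 ^ a : ℕ) : ℝ) ≤ n := by push_cast; linarith
    exact_mod_cast this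
  have hKcard : K ≤ (cube n x (3 ^ a)).card := by
    rw [hcard]; push_cast
    exact hK3a
  have hne : (cube n x (3 ^ a)).Nonempty := by
    rw [← Finset.card_pos, hcard]; positivity
  have hneS : (cube n x (3 ^ a) ×ˢ (univ : Finset (Fin s))).Nonempty := by
    rw [← Finset.card_pos, Finset.card_product, hcard, Finset.card_univ, Fintype.card_fin]
    positivity
  obtain ⟨hεp, hε2, hεe, hεsq⟩ := epsilons hβp hC7 hM hc4 b5 b6 he2 hKL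
  obtain ⟨lam, hlamdef⟩ : ∃ lam : ℝ, lam = β ^ (-(9 / 2) : ℝ) := ⟨_, rfl⟩
  obtain ⟨η, hηdef⟩ : ∃ η : ℝ, η = C7 * β ^ (-(3 / 2) : ℝ) := ⟨_, rfl⟩
  obtain ⟨ε, hεdef⟩ : ∃ ε : ℝ, ε = M * β ^ (-(3 / 4) : ℝ) := ⟨_, rfl⟩
  unfold BH3S at hBH
  have hηp : 0 < η := by rw [hηdef]; exact mul_pos hC7 (hp _)
  have HL' := HL n hnL Mm e K (cube n x (3 ^ a)) he1 he2 hK1 hKL hKcard
  rw [← hlamdef] at hlam hBH hg
  rw [← hηdef] at hBH hεsq HL'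
  rw [← hεdef] at hεp hε2 hεe hεsq
  obtain ⟨N0, hN0⟩ := trMag_of (K := K) (b := cube n x (3 ^ a) ×ˢ (univ : Finset (Fin s)))
    (Dict.magLim (edgesS n s Mm) hβp) hβp hneS hKp.le hηp
  obtain ⟨W0, hW0⟩ := HL'
  rw [Filter.frequently_atTop]
  intro N1
  obtain ⟨W, hW⟩ : ∃ W : ℕ, W = N1 + N0 + W0 + ⌈β⌉₊ + 1 := ⟨_, rfl⟩
  have hWp : 0 < W := by omega
  refine ⟨4 * W, by omega, ?_⟩
  have hβN : β ≤ ((4 * W : ℕ) : ℝ) := by
    have h1 : β ≤ (⌈β⌉₊ : ℝ) := Nat.le_ceil _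
    have h2 : (⌈β⌉₊ : ℝ) ≤ ((4 * W : ℕ) : ℝ) := by
      exact_mod_cast (by omega : ⌈β⌉₊ ≤ 4 * W)
    linarith
  have hmem : ∀ g : Tor n → ℝ, Fam n g0 lam g → ∀ y, 0 < g y ∧ g y ≤ 1 :=
    fun g hg y => ⟨hg0p.trans_le (hg.1 y).1, (hg.1 y).2⟩
  have hmagb : ∀ g : Tor n → ℝ, Fam n g0 lam g →
      ∀ z : Fin (4 * W + 1) × (Tor n × Fin s), z.1 ≠ 0 →
      1 - ε ^ 2 ≤ mag (phys (edgesS n s Mm) β (4 * W))
        (th (1 / (s : ℝ)) (4 * W) (hS g) (blk K (cube n x (3 ^ a) ×ˢ univ))) z := by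
    intro g hg z hz
    rw [← th_scaledS hs hβp]
    refine le_trans (by linarith) (hN0 (4 * W) (by omega) (hS fun y => g y / (s * β))
      (fun y => ?_) (fun y => hBH g hg y) z hz)
    have h1 := hmem g hg y.1
    unfold hS
    exact ⟨div_nonneg h1.1.le (by linarith), by rw [div_le_one (by linarith)]; linarith [h1.2]⟩
  have hlow : LowE n (4 * W * s) (cube n x (3 ^ a)) 1 g0 lam ε
      (cS3 n s (4 * W) (phys (edgesS n s Mm) β (4 * W)) K (cube n x (3 ^ a))) :=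
    hlo n (4 * W) K g0 lam ε (cube n x (3 ^ a)) _ (by omega) hKp.le hg0p hεp hε2
      (good_of_isLaw (Vale.Agent.P361.LRO.Ind.isLaw_phys' _ hβp.le hβN)) hmagb
  have key := H3 n (4 * W * s) (W * s) K g0 lam ε x a g
    (cS3 n s (4 * W) (phys (edgesS n s Mm) β (4 * W)) K (cube n x (3 ^ a)))
    hn3 (Nat.mul_pos hWp hs) (by ring) hea ha2e hK1 hK27 hK27a hK9 hg0 hg01 hlam hεp hεe
    (fun g hg => hW0 W (by omega) g (hmem g hg) (fun y => hBH g hg y)) hlow hg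
  rw [kap_scaledS hs hβp]
  exact key

theorem stepT {δ : ℝ} (s : ℕ) (hs : 1 ≤ s) (hK : KappaT δ s) (hD : DirStmt3)
    (hE : EnergyStmt3S s) (CS : ℝ) : ∃ C7 : ℝ, 0 < C7 ∧ CS ≤ C7 ∧ ∀ᶠ β : ℝ in atTop,
      ∀ᶠ n : ℕ in atTop, Odd n → ∀ [NeZero n], ∃ M0 : ℕ, ∀ M : ℕ, M0 ≤ M →
        ∀ g0 : ℝ, (n : ℝ) ^ (δ - 3) ≤ g0 →
        g0 ≤ 1 → BH3S n s M β (C7 * β ^ (-(3 / 2) : ℝ)) g0 →
        BH3S n s M β (C7 * β ^ (-(3 / 2) : ℝ) / 2) g0 := by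
  obtain ⟨CD, hCD, hD⟩ := hD
  obtain ⟨c2, c3, hc2, hc3, hK⟩ := hK
  obtain ⟨CE, βE, hE⟩ := hE
  have hsR : (1 : ℝ) ≤ s := by exact_mod_cast hs
  have hCE' : CE ≤ max CE 1 := le_max_left _ _
  have hCE1 : 1 ≤ max CE 1 := le_max_right _ _
  set CE' := max CE 1 with hCE'def
  set B0 : ℝ := CD * (1 + 1 / c3) * CE' + CD / (c3 * c2) with hB0
  have hB0p : 0 < B0 := by positivity
  set C7 : ℝ := max CS (16 * B0) with hC7def
  have hC7 : 0 < C7 := lt_max_of_lt_right (by positivity)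
  have hC7B : 16 * B0 ≤ C7 := le_max_right _ _
  refine ⟨C7, hC7, le_max_left _ _, ?_⟩
  obtain ⟨β1, hK⟩ := hK C7 c2 hC7 hc2
  have hlim : ∀ (a : ℝ), 0 < a → ∀ B : ℝ, ∀ᶠ β : ℝ in atTop, B ≤ β ^ a := fun a ha B =>
    (tendsto_rpow_atTop ha).eventually_ge_atTop B
  filter_upwards [eventually_ge_atTop β1, eventually_ge_atTop βE, eventually_ge_atTop (81 : ℝ),
    hlim (3 / 2) (by norm_num) C7, hlim (3 / 2) (by norm_num) (1 / c2),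
    hlim (3 / 2) (by norm_num) (1134 / C7)] with β hβ1 hβE hβ81 hb1 hb2 hb3
  have hβ9 : 9 ≤ β := by linarith
  have hβ : 0 < β := by linarith
  have hsβ : (0 : ℝ) < s * β := by positivity
  obtain ⟨n1, hK⟩ := hK β hβ1
  obtain ⟨n2, hE⟩ := hE β hβE
  obtain ⟨hm1, hl1, hl2⟩ := mC_spec hβ9
  have hw0 := wC_pos β
  have hw2 := two_le_wC hβ9
  have hwge := wC_ge β
  have hwle := wC_le (show 1 < β by linarith)
  have hwβ := wC_le34 hβ81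
  have hp : ∀ a : ℝ, 0 < β ^ a := fun a => Real.rpow_pos_of_pos hβ a
  have hmul : ∀ a b : ℝ, β ^ a * β ^ b = β ^ (a + b) := fun a b => (Real.rpow_add hβ a b).symm
  have hinv : β ^ (-(3 / 2) : ℝ) = (β ^ (3 / 2 : ℝ))⁻¹ := Real.rpow_neg hβ.le _
  set η : ℝ := C7 * β ^ (-(3 / 2) : ℝ) with hη
  have hη0 : 0 < η := mul_pos hC7 (hp _)
  have hη1 : η ≤ 1 := by
    rw [hη, hinv, ← div_eq_mul_inv, div_le_one (hp _)]
    exact hb1
  filter_upwards [eventually_ge_atTop n1, eventually_ge_atTop n2, eventually_ge_atTop 3,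
    eventually_ge_atTop (wC β * mC β)] with n hn1 hn2 hn3 hnw
  intro hodd _
  obtain ⟨M0, hE⟩ := hE n hn2
  refine ⟨M0, fun M hM g0 hg0 hg01 hB g hg z => ?_⟩
  obtain ⟨x, i⟩ := z
  have hwn : wC β ≤ n := le_trans (Nat.le_mul_of_pos_right _ hm1) hnw
  have hn0 : (0 : ℝ) < n := by
    have : (3 : ℝ) ≤ n := by exact_mod_cast hn3
    linarith
  have h0p : 0 < g0 := (Real.rpow_pos_of_pos hn0 _).trans_le hg0
  have hpos : ∀ y, 0 < g y := fun y => h0p.trans_le (hg.1 y).1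
  have hpos' : ∀ y, 0 < g y / (s * β) := fun y => div_pos (hpos y) hsβ
  -- the parameter `K`
  set K : ℝ := c2 * β ^ (3 / 2 : ℝ) with hKdef
  have hK1 : 1 ≤ K := by
    rw [div_le_iff₀ hc2] at hb2
    rw [hKdef]
    linarith
  have h3a : ((wC β : ℕ) : ℝ) = (3 : ℝ) ^ aC β := by
    unfold wC
    push_cast
    rfl
  have hKw : K ≤ c2 * β * 3 ^ aC β := by
    have h1 : β ^ (3 / 2 : ℝ) = β * Real.sqrt β := by
      rw [Real.sqrt_eq_rpow]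
      conv_rhs =>
        lhs
        rw [← Real.rpow_one β]
      rw [hmul]
      norm_num
    rw [hKdef, h1, ← h3a, mul_assoc]
    exact mul_le_mul_of_nonneg_left (mul_le_mul_of_nonneg_left hwge hβ.le) hc2.le
  have htw : ∀ z : Tor n, (∑ u ∈ cubeS n s z (wC β),
      rho (edgesS n s M) β (hS fun y => g y / (s * β)) u) / (cubeS n s z (wC β)).card ≤
      CD * (1 + 1 / c3) *
        yb (edgesS n s M) β (hS fun y => g y / (s * β)) (cubeS n s z (wC β)) +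
        CD / (c3 * c2) * β ^ (-(3 / 2) : ℝ) := by
    intro z
    have h2 := hD (Tor n × Fin s) (edgesS n s M) β (hS fun y => g y / (s * β)) K (c3 * K)
      (cubeS n s z (wC β)) hβ
      (fun y => (hpos' _).le) hK1 (by positivity)
      (by
        rw [← Finset.card_pos, card_cubeS hwn]
        positivity)
      (hK n hn1 hodd M (aC β) (h3a ▸ hwge) (h3a ▸ hwβ) K hK1 le_rfl hKw g0 hg0 hg01 hB g hg z)
    have h3 : K / (c3 * K) = 1 / c3 := by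
      have : 0 < K := by linarith
      field_simp
    have h4 : CD / (c3 * K) = CD / (c3 * c2) * β ^ (-(3 / 2) : ℝ) := by
      rw [hinv, hKdef]
      have := hp (3 / 2)
      field_simp
    rw [h3, h4] at h2
    exact h2
  -- the average
  have hm' : (0 : ℝ) < (mC β : ℝ) ^ 3 := by
    have : 0 < mC β := hm1
    positivity
  have hsum : ∑ y : Fin 3 → Fin (mC β),
      (∑ z ∈ cubeS n s (x + fun i => ((wC β * (y i : ℕ) : ℕ) : ZMod n)) (wC β),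
        rho (edgesS n s M) β (hS fun y => g y / (s * β)) z) /
      (cubeS n s (x + fun i => ((wC β * (y i : ℕ) : ℕ) : ZMod n)) (wC β)).card ≤
      (mC β : ℝ) ^ 3 * (η / 16) := by
    have h2 := hE M hM g (fun y => ⟨hpos y, (hg.1 y).2⟩) x (wC β) (mC β) (by omega) hwle hl1 hl2
    have h4 : 0 ≤ CD * (1 + 1 / c3) := by positivity
    refine (avg_le hm1 _ _ h4 (fun y => htw _) h2).trans ?_
    refine mul_le_mul_of_nonneg_left ?_ hm'.le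
    have h3 : CD * (1 + 1 / c3) * (CE * β ^ (-(3 / 2) : ℝ)) ≤
        CD * (1 + 1 / c3) * (CE' * β ^ (-(3 / 2) : ℝ)) :=
      mul_le_mul_of_nonneg_left (mul_le_mul_of_nonneg_right hCE' (hp _).le) h4
    have h6 : B0 * β ^ (-(3 / 2) : ℝ) ≤ η / 16 := by
      rw [hη]
      have := mul_le_mul_of_nonneg_right hC7B (hp (-(3 / 2))).le
      linarith
    have h7 : CD * (1 + 1 / c3) * (CE' * β ^ (-(3 / 2) : ℝ)) +
        CD / (c3 * c2) * β ^ (-(3 / 2) : ℝ) = B0 * β ^ (-(3 / 2) : ℝ) := by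
      rw [hB0]
      ring
    linarith
  obtain ⟨k, j, hk, hz⟩ := good_pointS hs hw0 hm1 hwn x _ _ hsum
  obtain ⟨hd0, hd2, hd9⟩ := num_d hC7 hβ9 hb3 (l := wC β * mC β) (by push_cast; exact hl2)
  exact transport hs M hβ h0p (hp _).le hη0 hη1 hg hk hd0 hd2 hd9 x i j hz
theorem boot {δ : ℝ} (hδ : 0 < δ) (hδ1 : δ ≤ 1) (s : ℕ) (hs : 1 ≤ s) :
    ∃ C7 β0 : ℝ, 0 < C7 ∧ ∀ β : ℝ, β0 ≤ β → ∃ n0 : ℕ, ∀ (n : ℕ) [NeZero n], n0 ≤ n → Odd n →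
      ∃ M0 : ℕ, ∀ M : ℕ, M0 ≤ M → ∀ g0 : ℝ, (n : ℝ) ^ (δ - 3) ≤ g0 → g0 ≤ 1 →
        BH3S n s M β (C7 * β ^ (-(3 / 2) : ℝ)) g0 := by
  obtain ⟨CS, βS, hS0⟩ := startStmt3S s hs
  obtain ⟨C7, hC7, hCS, hstep⟩ := stepT s hs (kappa hδ hδ1 hs) dirStmt3 (energyStmt3S s hs) CS
  obtain ⟨β0, H⟩ := eventually_atTop.1
    (hstep.and ((eventually_ge_atTop βS).and (eventually_ge_atTop (1 : ℝ))))
  refine ⟨C7, β0, hC7, fun β hβ0 => ?_⟩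
  obtain ⟨hst, hβS, hβ1⟩ := H β hβ0
  have hβ : 0 < β := by linarith
  obtain ⟨n1, Hn⟩ := eventually_atTop.1 hst
  obtain ⟨n2, hS0⟩ := hS0 β hβS
  refine ⟨max n1 n2, fun n _ hn hodd => ?_⟩
  have hn1 : n1 ≤ n := (le_max_left _ _).trans hn
  have hn2 : n2 ≤ n := (le_max_right _ _).trans hn
  obtain ⟨M1, Hn⟩ := Hn n hn1 hodd
  obtain ⟨M2, hS0⟩ := hS0 n hn2 hodd
  refine ⟨max M1 M2, fun M hM g0 hg0 hg01 g hg z => ?_⟩
  have hM1 : M1 ≤ M := (le_max_left _ _).trans hM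
  have hM2 : M2 ≤ M := (le_max_right _ _).trans hM
  have hn0 : (0 : ℝ) < n := by exact_mod_cast NeZero.pos n
  have ha0 : (0 : ℝ) < (n : ℝ) ^ (δ - 3) := Real.rpow_pos_of_pos hn0 _
  have hpow : 0 < β ^ (-(3 / 2) : ℝ) := Real.rpow_pos_of_pos hβ _
  set η : ℝ := C7 * β ^ (-(3 / 2) : ℝ) with hη
  have hη0 : 0 < η := mul_pos hC7 hpow
  have key := BootS.bootS3 (n := n) (s := s) M (β := β) hη0
    (Real.rpow_pos_of_pos hβ (-(9 / 2))).le ha0 (hg0.trans hg01)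
    (fun z => (hS0 M hM2 z).trans (mul_le_mul_of_nonneg_right hCS hpow.le))
    (fun h0 hh0 hh01 hB => Hn M hM1 h0 hh0 hh01 hB) g
    ⟨fun y => ⟨hg0.trans (hg.1 y).1, (hg.1 y).2⟩, hg.2⟩ z
  linarith

end

end Vale.Agent.N361
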