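import Vale.Agent.P361S42.St0
import Vale.Agent.P361S42.Kr

/-!
# The Heisenberg ferromagnet on a finite graph, built from spin matrices `S 0, S 1, S 2`
-/

noncomputable section

namespace Vale.Agent.N361

open Vale.Agent.P361.Model (Op siteOp box)

variable {n : ℕ} (S : Fin 3 → Matrix (Fin (n + 1)) (Fin (n + 1)) ℂ)
  {V : Type} [Fintype V] [DecidableEq V]

/-- `S_x · S_y` for the unordered pair `{x, y}`. -/
def bond : Sym2 V → Op n V :=
  Sym2.lift ⟨fun x y => ∑ a, siteOp x (S a) * siteOp y (S a),
    fun x y => Finset.sum_congr rfl fun a _ => P361S42.site_comm (S a) x y⟩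

open Classical in
/-- `H`: minus the sum of `S_x · S_y` over the edges of `G`, each counted once. -/
def ham (G : SimpleGraph V) : Op n V := -∑ e ∈ G.edgeFinset, bond S e

/-- `M`: the sum of `S³_x` over all sites. -/
def mag : Op n V := ∑ x, siteOp x (S 2)

/-- `exp (-β (H - h M))`. -/
def gibbs (G : SimpleGraph V) (β h : ℝ) : Op n V :=
  NormedSpace.exp (-(β : ℂ) • (ham S G - (h : ℂ) • mag S))

/-- The partition function `Tr exp (-β (H - h M))`. -/
def partition (G : SimpleGraph V) (β h : ℝ) : ℂ := (gibbs S G β h).trace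

/-- The Gibbs expectation of `M ^ k`. -/
def moment (G : SimpleGraph V) (β h : ℝ) (k : ℕ) : ℝ :=
  ((gibbs S G β h * mag S ^ k).trace / partition S G β h).re

/-- `Λ_N` with free boundary conditions: `x, y` are adjacent if `|x - y|₁ = 1`. -/
def cube (N : ℕ) : SimpleGraph (box N) :=
  SimpleGraph.fromRel fun x y => ∑ i, |x.1 i - y.1 i| = 1

/-- The torus `(ℤ / L)³` with its nearest neighbour edges. -/
def torus (L : ℕ) : SimpleGraph (Fin 3 → ZMod L) :=
  SimpleGraph.fromRel fun x y => ∃ i, y = x + Pi.single i 1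

end Vale.Agent.N361
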