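import Vale.Agent.N361.LY
import Vale.Agent.P361S42.Main

/-!
# The Gaussian inequality for every spin and every graph
-/

set_option linter.all false

namespace Vale.Agent.N361

open Finset Matrix Filter Topology Vale.Agent.P361 Vale.Agent.P361.LRO Vale.Agent.P361.LRO.GenS
open scoped ComplexOrder

noncomputable section

variable {V : Type} [Fintype V] [DecidableEq V] (s : ℕ) (J : V → V → Prop) [DecidableRel J]

/-- The ordered pairs of the graph. -/
def prs : Finset (V × V) := univ.filter fun p : V × V => J p.1 p.2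

theorem hamC_gen (hJ : ∀ x, ¬ J x x) (h : ℝ) :
    hamC s J (h : ℂ) = (1 / 2 : ℂ) •
      cM (ham (interL (prs J).toList s) (lift s fun _ : V => 2 * h)) -
        ((1 / 2 : ℂ) * ((prs J).card * ((s : ℂ) ^ 2 * (1 / 4)))) •
          (1 : Matrix (V × Fin s → Fin 2) (V × Fin s → Fin 2) ℂ) := by
  have e1 : ∀ p ∈ prs J, ∑ a : Fin 3, tot s a p.1 * tot s a p.2
      = ((s : ℂ) ^ 2 * (1 / 4)) • (1 : Matrix (V × Fin s → Fin 2) (V × Fin s → Fin 2) ℂ)
        - cM (∑ ab : Fin s × Fin s, LRO.hM (p.1, ab.1) (p.2, ab.2)) := fun p hp =>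
    tot_mul_tot _ _ fun h => hJ p.2 (by simpa [prs, h] using hp)
  rw [hamC, ← Fintype.sum_prod_type' (fun x y =>
    if J x y then ∑ a : Fin 3, tot s a x * tot s a y else 0), ← Finset.sum_filter]
  change -((1 / 2 : ℂ) • ∑ p ∈ prs J, _) - _ = _
  rw [Finset.sum_congr rfl e1, ham, sum_interL, Finset.sum_map_toList, cM_sub, cM_sum,
    Finset.sum_sub_distrib, Finset.sum_const, ← Nat.cast_smul_eq_nsmul ℂ, smul_smul]
  have e3 : (2 : ℂ) • (h : ℂ) • ∑ x : V, tot s 2 x
      = cM (∑ z : V × Fin s, (lift s (fun _ : V => 2 * h) z / 2) • szM z) := by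
    rw [Fintype.sum_prod_type, cM_sum, smul_smul, Finset.smul_sum]
    refine Finset.sum_congr rfl fun x _ => ?_
    rw [tot_z, show (2 : ℂ) * h = ((2 * h : ℝ) : ℂ) by push_cast; rfl, ← cM_smul, Finset.smul_sum]
    congr 1
    refine Finset.sum_congr rfl fun i _ => ?_
    rw [smul_smul]
    congr 1
    rw [lift]
    ring
  rw [← e3]
  have key : ∀ (A O M : Matrix (V × Fin s → Fin 2) (V × Fin s → Fin 2) ℂ) (k : ℂ),
      -((1 / 2 : ℂ) • (k • O - A)) - M = (1 / 2 : ℂ) • (A - (2 : ℂ) • M) - ((1 / 2 : ℂ) * k) • O := by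
    intro A O M k
    module
  exact key _ _ _ _

theorem trace_gen [NeZero s] (hJ : ∀ x, ¬ J x x) (β h : ℝ) :
    (trace (NormedSpace.exp (expoV s J β h))).re =
      Real.exp (β * (1 / 2 * ((prs J).card * ((s : ℝ) ^ 2 * (1 / 4))))) *
        trace (symProd V s * NormedSpace.exp (-(β / 2) •
          ham (interL (prs J).toList s) (lift s fun _ : V => 2 * h))) := by
  have h0 : expoV s J β h = -(β : ℂ) • (Model.hamiltonian s J -
    (h : ℂ) • Model.magnetization s V) := rfl
  have e1 : -(β : ℂ) • hamC s J (h : ℂ) =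
      cM (-(β / 2) • ham (interL (prs J).toList s) (lift s fun _ : V => 2 * h)) +
        ((β * (1 / 2 * ((prs J).card * ((s : ℝ) ^ 2 * (1 / 4)))) : ℝ) : ℂ) •
          (1 : Matrix (V × Fin s → Fin 2) (V × Fin s → Fin 2) ℂ) := by
    rw [hamC_gen s J hJ, cM_smul]
    have key : ∀ (X O : Matrix (V × Fin s → Fin 2) (V × Fin s → Fin 2) ℂ) (k : ℂ),
        -(β : ℂ) • ((1 / 2 : ℂ) • X - k • O) = (-((β : ℂ) / 2)) • X + ((β : ℂ) * k) • O := by
      intro X O k
      module
    rw [key]
    push_cast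
    rfl
  rw [h0, trace_exp_spin, e1, LRO.exp_add_smul_one, exp_cM, symV_eq, Matrix.smul_mul,
    Matrix.trace_smul, ← cM_mul, trace_cM, smul_eq_mul, Matrix.trace_mul_comm,
    ← Complex.ofReal_mul, Complex.ofReal_re]

theorem gau_spin (hs : 1 ≤ s) (hJ : ∀ x, ¬ J x x) {β : ℝ} (hβ : 0 < β) :
    Gau fun h => Model.logTr s J β h := by
  have : NeZero s := ⟨by omega⟩
  set c := β * (1 / 2 * ((prs J).card * ((s : ℝ) ^ 2 * (1 / 4)))) with hc
  refine Gau.lim (F := fun m h => c + Real.log (LY.ZS (Lm (prs J).toList s m) (β / 2)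
    fun _ => 2 * h)) (fun m => ?_) fun h => ?_
  · obtain ⟨a, b⟩ := gau_half (Lm (prs J).toList s m) (half_pos hβ)
    refine ⟨fun h => ?_, fun x y hx hxy => ?_⟩
    · have := a (2 * h)
      simp only [mul_neg, this]
    · have := b (2 * x) (2 * y) (by positivity) (by linarith)
      simp only [mul_zero]
      linarith
  · have h1 := trace_exp_pos (expoV_isHermitian s J hJ β h)
    rw [logTr_eq]
    rw [trace_gen s J hJ] at h1 ⊢
    have h2 := (mul_pos_iff_of_pos_left (Real.exp_pos _)).1 h1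
    rw [Real.log_mul (Real.exp_pos _).ne' h2.ne', Real.log_exp]
    refine Tendsto.const_add _ (Tendsto.log ?_ h2.ne')
    have key := Lim.tendsto_trace_ham (interL (prs J).toList s) (intraL V s)
      (lift s fun _ : V => 2 * h) (half_pos hβ) (symProd V s) 1 symProd_transpose
      (fun e he => by
        obtain ⟨⟨x, a⟩, ⟨y, b⟩⟩ := e
        have h2 := (mem_intraL.1 he).1
        dsimp only at h2
        subst h2
        exact swapM_mul_symProd x a b)
      (fun v hv => symProd_mulVec v fun x a b => by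
        rcases lt_trichotomy a b with hab | hab | hab
        · exact hv ((x, a), (x, b)) (mem_intraL.2 ⟨rfl, hab⟩)
        · subst hab
          have : swapM (x, a) (x, a) = (1 : Matrix (V × Fin s → Fin 2)
              (V × Fin s → Fin 2) ℝ) := by
            ext σ τ
            simp [swapM, Matrix.one_apply]
          rw [this, Matrix.one_mulVec]
        · have h3 := hv ((x, b), (x, a)) (mem_intraL.2 ⟨rfl, hab⟩)
          have h4 : swapM (x, a) (x, b) = swapM (x, b) (x, a) := by
            ext σ τ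
            simp [swapM, Equiv.swap_comm]
          rw [h4]
          exact h3)
      (fun e he => by
        obtain ⟨⟨x, a⟩, ⟨y, b⟩⟩ := e
        have h2 := (mem_intraL.1 he).1
        dsimp only at h2
        subst h2
        exact comm_ham _ _ x a b)
    simp only [Matrix.mul_one] at key
    exact key

theorem bond_comm {x y : V} (hxy : x ≠ y) :
    Commute (∑ a, siteOpV x (Model.spin s a) * siteOpV y (Model.spin s a))
      (Model.magnetization s V) := by
  have hM : Model.magnetization s V = ∑ w : V, siteOpV w (Model.spin s 2) := rfl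
  rw [hM, ← Finset.add_sum_erase _ _ (Finset.mem_univ x),
    ← Finset.add_sum_erase _ _ (Finset.mem_erase.2 ⟨hxy.symm, Finset.mem_univ y⟩), ← add_assoc]
  refine Commute.add_right ?_ (Commute.sum_right _ _ _ fun w hw => ?_)
  · have c0 := (P361S42.std s).comm 0 2
    have c1 := (P361S42.std s).comm 1 2
    have d0 : Model.spin s 0 * Model.spin s 2 =
        Model.spin s 2 * Model.spin s 0 - Complex.I • Model.spin s 1 := by
      rw [sub_eq_iff_eq_add'] at c0
      rw [c0, Fin.sum_univ_three]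
      simp [P361S42.eps]
      norm_num [sub_eq_add_neg]
    have d1 : Model.spin s 1 * Model.spin s 2 =
        Model.spin s 2 * Model.spin s 1 + Complex.I • Model.spin s 0 := by
      rw [sub_eq_iff_eq_add'] at c1
      rw [c1, Fin.sum_univ_three]
      simp [P361S42.eps]
      norm_num
    have k1 : ∀ A B C : Matrix (Fin (s + 1)) (Fin (s + 1)) ℂ,
        siteOpV x A * siteOpV y B * (siteOpV x C + siteOpV y C) =
          siteOpV x (A * C) * siteOpV y B + siteOpV x A * siteOpV y (B * C) := fun A B C => by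
      rw [mul_add, mul_assoc, ← siteOpV_commute hxy, ← mul_assoc, siteOpV_mul, mul_assoc,
        siteOpV_mul]
    have k2 : ∀ A B C : Matrix (Fin (s + 1)) (Fin (s + 1)) ℂ,
        (siteOpV x C + siteOpV y C) * (siteOpV x A * siteOpV y B) =
          siteOpV x (C * A) * siteOpV y B + siteOpV x A * siteOpV y (C * B) := fun A B C => by
      rw [add_mul, ← mul_assoc, siteOpV_mul, ← mul_assoc, ← siteOpV_commute hxy, mul_assoc,
        siteOpV_mul]
    unfold Commute SemiconjBy
    rw [Fin.sum_univ_three, add_mul, add_mul, mul_add _ (_ + _), mul_add _ (_ * _) (_ * _), k1, k1,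
      k1, k2, k2, k2, d0, d1]
    simp only [siteOpV_add, siteOpV_sub, siteOpV_smul, add_mul, mul_add, sub_mul, mul_sub,
      Matrix.smul_mul, Matrix.mul_smul]
    abel
  · have h1 : y ≠ w := (Finset.ne_of_mem_erase hw).symm
    have h2 : x ≠ w := (Finset.ne_of_mem_erase (Finset.mem_of_mem_erase hw)).symm
    exact Commute.sum_left _ _ _ fun a _ =>
      Commute.mul_left (siteOpV_commute h2 _ _) (siteOpV_commute h1 _ _)

theorem expo_comm (hJ : ∀ x, ¬ J x x) (β h : ℝ) :
    Commute (expoV s J β h) (Model.magnetization s V) := by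
  refine Commute.smul_left (Commute.sub_left (Commute.neg_left (Commute.smul_left ?_ _))
    ((Commute.refl _).smul_left _)) _
  refine Commute.sum_left _ _ _ fun x _ => Commute.sum_left _ _ _ fun y _ => ?_
  split_ifs with h
  · exact bond_comm s fun e => hJ y (e ▸ h)
  · exact Commute.zero_left _

theorem mag_diag : ∃ μ : (V → Fin (s + 1)) → ℝ,
    Model.magnetization s V = diagonal fun σ => (μ σ : ℂ) := by
  refine ⟨fun σ => ∑ x, ((s : ℝ) / 2 - ((σ x : ℕ) : ℝ)), ?_⟩
  have hM : Model.magnetization s V = ∑ w : V, siteOpV w (Model.spinZ s) := rfl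
  rw [hM]
  ext σ τ
  rw [Matrix.sum_apply, Matrix.diagonal_apply]
  simp only [siteOpV_apply, Model.spinZ, Matrix.diagonal_apply, Matrix.one_apply]
  split_ifs with h
  · subst h
    simp
  · obtain ⟨y, hy⟩ := Function.ne_iff.mp h
    refine Finset.sum_eq_zero fun x _ => ?_
    by_cases hx : y = x
    · subst hx
      rw [if_neg hy, zero_mul]
    · rw [Finset.prod_eq_zero (Finset.mem_erase.2 ⟨hx, Finset.mem_univ y⟩) (if_neg hy), mul_zero]

/-- `⟨M²⟩` in zero field. -/
def sq0 (β : ℝ) : ℝ :=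
  (trace (NormedSpace.exp (expoV s J β 0) *
    (Model.magnetization s V * Model.magnetization s V))).re /
      (trace (NormedSpace.exp (expoV s J β 0))).re

theorem gauss (hs : 1 ≤ s) (hJ : ∀ x, ¬ J x x) {β : ℝ} (hβ : 0 < β) {y : ℝ} (hy : 0 < y) :
    Model.logTr s J β y - Model.logTr s J β 0 ≤ (β * y) ^ 2 / 2 * sq0 s J β := by
  obtain ⟨ev, hG⟩ := gau_spin s J hs hJ hβ
  obtain ⟨μ, hμ⟩ := mag_diag (V := V) s
  set E := NormedSpace.exp (expoV s J β 0) with hE
  set w : (V → Fin (s + 1)) → ℝ := fun σ => (E σ σ).re with hw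
  have tr : ∀ f : (V → Fin (s + 1)) → ℝ,
      (trace (E * diagonal fun σ => (f σ : ℂ))).re = ∑ σ, w σ * f σ := fun f => by
    simp [Matrix.trace, hw]
  have w0 : ∀ σ, 0 ≤ w σ := fun σ => by
    have h1 := trace_exp_mul_nonneg (expoV_isHermitian s J hJ β 0)
      (Y := diagonal fun τ => (((if τ = σ then 1 else 0 : ℝ)) : ℂ))
      (Matrix.PosSemidef.diagonal fun τ => by
        dsimp only
        split_ifs <;> simp)
    rw [← hE, tr] at h1
    simpa using h1
  have hZ : ∀ h : ℝ, (trace (NormedSpace.exp (expoV s J β h))).re =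
      ∑ σ, w σ * Real.exp (β * h * μ σ) := fun h => by
    rw [expoV_shift s J β 0 h, Matrix.exp_add_of_commute _ _
      ((expo_comm s J hJ β 0).smul_right _), ← hE, hμ, ← Matrix.diagonal_smul,
      Matrix.exp_diagonal, ← tr]
    congr 4
    funext σ
    rw [Pi.exp_def]
    simp only [Pi.smul_apply, smul_eq_mul, ← Complex.exp_eq_exp_ℂ, sub_zero]
    push_cast
    rfl
  have hpos : ∀ h, 0 < (trace (NormedSpace.exp (expoV s J β h))).re := fun h =>
    trace_exp_pos (expoV_isHermitian s J hJ β h)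
  have hZ0 : (trace E).re = ∑ σ, w σ := by
    rw [hE, hZ]
    simp
  have hW : 0 < ∑ σ, w σ := hZ0 ▸ hpos 0
  have hq : sq0 s J β = (∑ σ, w σ * μ σ ^ 2) / ∑ σ, w σ := by
    rw [sq0, ← hE, hZ0, hμ, Matrix.diagonal_mul_diagonal, ← tr]
    congr 5
    funext σ
    push_cast
    ring
  let g : ℝ → ℝ := fun x =>
    (β * y) ^ 2 / 2 * ((∑ σ, w σ * (μ σ ^ 2 * Real.exp ((β * x * μ σ) ^ 2 / 2))) / ∑ σ, w σ)
  have hg : Tendsto g (𝓝[>] 0) (𝓝 ((β * y) ^ 2 / 2 * sq0 s J β)) := by
    have h1 : Continuous g := by fun_prop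
    have h2 : g 0 = (β * y) ^ 2 / 2 * sq0 s J β := by simp [g, hq]
    exact h2 ▸ h1.continuousWithinAt.tendsto
  refine ge_of_tendsto hg ?_
  filter_upwards [Ioc_mem_nhdsGT hy] with x hx
  have h1 := hG x y hx.1 hx.2
  have h2 : (trace (NormedSpace.exp (expoV s J β (-x)))).re =
      (trace (NormedSpace.exp (expoV s J β x))).re :=
    Real.log_injOn_pos (hpos _) (hpos _) (ev x)
  have h3 : (trace (NormedSpace.exp (expoV s J β x))).re - ∑ σ, w σ ≤ (β * x) ^ 2 / 2 *
      ∑ σ, w σ * (μ σ ^ 2 * Real.exp ((β * x * μ σ) ^ 2 / 2)) := by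
    have h4 : (trace (NormedSpace.exp (expoV s J β x))).re =
        ∑ σ, w σ * Real.cosh (β * x * μ σ) := by
      have h5 := hZ (-x)
      rw [h2] at h5
      have h6 := hZ x
      simp only [Real.cosh_eq, ← mul_div_assoc, mul_add, ← Finset.sum_div, Finset.sum_add_distrib]
      simp only [mul_neg, neg_mul] at h5
      linarith
    rw [h4, ← Finset.sum_sub_distrib, Finset.mul_sum]
    refine Finset.sum_le_sum fun σ _ => ?_
    have h5 := mul_le_mul_of_nonneg_left (cosh_hi (β * x * μ σ)) (w0 σ)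
    refine le_trans (le_of_eq (by ring)) (h5.trans (le_of_eq (by ring)))
  have h4 : Model.logTr s J β x - Model.logTr s J β 0 ≤
      ((trace (NormedSpace.exp (expoV s J β x))).re - ∑ σ, w σ) / ∑ σ, w σ := by
    rw [logTr_eq, logTr_eq, ← hE, hZ0, ← Real.log_div (hpos _).ne' hW.ne', sub_div,
      div_self hW.ne']
    exact Real.log_le_sub_one_of_pos (div_pos (hpos _) hW)
  have h5 := h4.trans (div_le_div_of_nonneg_right h3 hW.le)
  have h6 : 0 < x ^ 2 := pow_pos hx.1 2
  refine le_of_mul_le_mul_left (h1.trans ?_) h6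
  refine (mul_le_mul_of_nonneg_left h5 (sq_nonneg y)).trans (le_of_eq ?_)
  simp only [g]
  ring

/-- Susceptibility in zero field from the magnetization in a small field. -/
theorem sq0_ge (hs : 1 ≤ s) (hJ : ∀ x, ¬ J x x) {β : ℝ} (hβ : 0 < β) {h : ℝ} (hh : 0 < h) :
    gibbsMagV s J β h ≤ 2 * β * h * sq0 s J β := by
  have h1 := gauss s J hs hJ hβ (y := 2 * h) (by positivity)
  have h2 := logTr_support s J hJ β h (2 * h)
  have h3 := logTr_support s J hJ β 0 h
  have h4 := logTr_support s J hJ β 0 (-h)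
  have h5 : Model.logTr s J β (-h) = Model.logTr s J β h := (gau_spin s J hs hJ hβ).1 h
  have h6 : 0 < β * h := by positivity
  refine le_of_mul_le_mul_left ?_ h6
  nlinarith

theorem mag_mono (hJ : ∀ x, ¬ J x x) {β : ℝ} (hβ : 0 < β) {h h' : ℝ} (hh : h ≤ h') :
    gibbsMagV s J β h ≤ gibbsMagV s J β h' := by
  rcases hh.eq_or_lt with rfl | hh
  · exact le_rfl
  have h2 := logTr_support s J hJ β h h'
  have h3 := logTr_support s J hJ β h' h
  have h6 : 0 < β * (h' - h) := mul_pos hβ (by linarith)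
  refine le_of_mul_le_mul_left ?_ h6
  nlinarith

end

end Vale.Agent.N361
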