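import Vale.Agent.P361.Bd6.B10

/-!
# The Gaussian inequality of Lee and Yang type, spin `1/2`, any graph
-/

set_option linter.all false

namespace Vale.Agent.N361

open Finset Matrix Filter Topology Polynomial Vale.Agent.P361 Vale.Agent.P361.LRO

noncomputable section

theorem cosh_lo (x : ℝ) (hx : 0 ≤ x) : x ^ 2 / 2 ≤ Real.cosh x - 1 := by
  have h1 : Real.cosh x = Real.cosh (2 * (x / 2)) := by congr 1; ring
  have h2 : x / 2 ≤ Real.sinh (x / 2) := Real.self_le_sinh_iff.2 (by positivity)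
  rw [h1, Real.cosh_two_mul, Real.cosh_sq]
  nlinarith

theorem cosh_hi (x : ℝ) : Real.cosh x - 1 ≤ x ^ 2 / 2 * Real.exp (x ^ 2 / 2) := by
  have h1 := Real.cosh_le_exp_half_sq x
  have h2 := Real.add_one_le_exp (-(x ^ 2 / 2))
  have h3 : Real.exp (-(x ^ 2 / 2)) * Real.exp (x ^ 2 / 2) = 1 := by
    rw [← Real.exp_add]; simp
  have h4 := mul_le_mul_of_nonneg_right h2 (Real.exp_pos (x ^ 2 / 2)).le
  nlinarith

theorem fac_ineq {c x y : ℝ} (hc : c < 1) (hx : 0 < x) (hxy : x ≤ y) :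
    x ^ 2 * (Real.log (2 * (Real.cosh y - c)) - Real.log (2 * (Real.cosh 0 - c))) ≤
      y ^ 2 * Real.exp (y ^ 2 / 2) *
        (Real.log (2 * (Real.cosh x - c)) - Real.log (2 * (Real.cosh 0 - c))) := by
  have ha : 0 < 1 - c := by linarith
  have key : ∀ z : ℝ, Real.log (2 * (Real.cosh z - c)) - Real.log (2 * (Real.cosh 0 - c)) =
      Real.log (1 + (Real.cosh z - 1) / (1 - c)) := fun z => by
    have := Real.one_le_cosh z
    rw [Real.cosh_zero, ← Real.log_div (by linarith) (by linarith)]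
    congr 1
    field_simp
    ring
  rw [key, key]
  set u := Real.cosh x - 1 with hu
  set v := Real.cosh y - 1 with hv
  have hu1 : x ^ 2 / 2 ≤ u := cosh_lo x hx.le
  have hu0 : 0 < u := lt_of_lt_of_le (by positivity) hu1
  have huv : u ≤ v := by
    have : Real.cosh x ≤ Real.cosh y := by
      rw [Real.cosh_le_cosh, abs_of_pos hx, abs_of_pos (hx.trans_le hxy)]
      exact hxy
    linarith
  have hv0 : 0 < v := hu0.trans_le huv
  have hv1 : v ≤ y ^ 2 / 2 * Real.exp (y ^ 2 / 2) := cosh_hi y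
  have hA : 0 ≤ Real.log (1 + u / (1 - c)) :=
    Real.log_nonneg (le_add_of_nonneg_right (by positivity))
  have hB : 0 ≤ Real.log (1 + v / (1 - c)) :=
    Real.log_nonneg (le_add_of_nonneg_right (by positivity))
  have h1 := rpow_one_add_le_one_add_mul_self (s := v / (1 - c)) (p := u / v)
    (le_trans (by norm_num) (by positivity : 0 ≤ v / (1 - c))) (by positivity)
    ((div_le_one hv0).2 huv)
  have h2 : u / v * (v / (1 - c)) = u / (1 - c) := by field_simp
  rw [h2] at h1
  have h3 := Real.log_le_log (by positivity) h1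
  rw [Real.log_rpow (by positivity), div_mul_eq_mul_div, div_le_iff₀ hv0] at h3
  have h4 := mul_le_mul_of_nonneg_right hu1 hB
  have h5 := mul_le_mul_of_nonneg_right hv1 hA
  nlinarith

theorem phi_eq {ρ : ℂ} (h : ‖ρ‖ = 1) (t : ℝ) :
    ‖Complex.exp (-t) - ρ‖ * ‖Complex.exp t - ρ‖ = 2 * (Real.cosh t - ρ.re) := by
  have h1 : ρ.re ^ 2 + ρ.im ^ 2 = 1 := by
    have := Complex.sq_norm ρ
    rw [h, Complex.normSq_apply] at this
    nlinarith
  have h2 : Real.exp (-t) * Real.exp t = 1 := by rw [← Real.exp_add]; simp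
  have h3 : ρ.re ≤ 1 := h ▸ Complex.re_le_norm ρ
  have h4 := Real.one_le_cosh t
  have e1 : Complex.exp (-t) = ((Real.exp (-t) : ℝ) : ℂ) := by push_cast; rfl
  have e2 : Complex.exp t = ((Real.exp t : ℝ) : ℂ) := by push_cast; rfl
  rw [← sq_eq_sq₀ (by positivity) (by linarith), mul_pow, Complex.sq_norm, Complex.sq_norm,
    Complex.normSq_apply, Complex.normSq_apply, e1, e2, Real.cosh_eq]
  simp only [Complex.sub_re, Complex.sub_im, Complex.ofReal_re, Complex.ofReal_im]
  set p := Real.exp (-t)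
  set q := Real.exp t
  have a1 : (p - ρ.re) * (p - ρ.re) + (0 - ρ.im) * (0 - ρ.im) = p * (p + q - 2 * ρ.re) := by
    nlinarith
  have a2 : (q - ρ.re) * (q - ρ.re) + (0 - ρ.im) * (0 - ρ.im) = q * (p + q - 2 * ρ.re) := by
    nlinarith
  rw [a1, a2]
  calc p * (p + q - 2 * ρ.re) * (q * (p + q - 2 * ρ.re))
      = (p * q) * (p + q - 2 * ρ.re) ^ 2 := by ring
    _ = _ := by rw [h2]; ring

/-- The product over the zeros. -/
def FF (R : Multiset ℂ) (t : ℝ) : ℝ :=
  (R.map fun ρ => ‖Complex.exp (-t) - ρ‖ * ‖Complex.exp t - ρ‖).prod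

theorem ms_ineq (R : Multiset ℂ) (hR : ∀ ρ ∈ R, ρ = 0 ∨ (‖ρ‖ = 1 ∧ ρ ≠ 1)) {x y : ℝ}
    (hx : 0 < x) (hxy : x ≤ y) : (∀ t, 0 < FF R t) ∧
    x ^ 2 * (Real.log (FF R y) - Real.log (FF R 0)) ≤
      y ^ 2 * Real.exp (y ^ 2 / 2) * (Real.log (FF R x) - Real.log (FF R 0)) := by
  induction R using Multiset.induction_on with
  | empty => simp [FF]
  | cons ρ R ih =>
    obtain ⟨i1, i2⟩ := ih fun a ha => hR a (Multiset.mem_cons_of_mem ha)
    have e : ∀ t, FF (ρ ::ₘ R) t = (‖Complex.exp (-t) - ρ‖ * ‖Complex.exp t - ρ‖) * FF R t :=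
      fun t => by simp [FF]
    rcases hR ρ (Multiset.mem_cons_self _ _) with rfl | ⟨h1, h2⟩
    · have e1 : ∀ t, FF ((0 : ℂ) ::ₘ R) t = FF R t := fun t => by
        rw [e, sub_zero, sub_zero, ← norm_mul, ← Complex.exp_add]
        simp
      simp only [e1]
      exact ⟨i1, i2⟩
    · have hc : ρ.re < 1 := by
        refine lt_of_le_of_ne (h1 ▸ Complex.re_le_norm ρ) fun h => h2 ?_
        have := Complex.sq_norm ρ
        rw [h1, Complex.normSq_apply, h] at this
        exact Complex.ext h (by simpa using (by nlinarith : ρ.im * ρ.im = 0))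
      have hp : ∀ t, 0 < 2 * (Real.cosh t - ρ.re) := fun t => by
        have := Real.one_le_cosh t
        linarith
      simp only [e, phi_eq h1]
      refine ⟨fun t => mul_pos (hp t) (i1 t), ?_⟩
      have := fac_ineq hc hx hxy
      rw [Real.log_mul (hp _).ne' (i1 _).ne', Real.log_mul (hp _).ne' (i1 _).ne',
        Real.log_mul (hp _).ne' (i1 _).ne']
      linarith

theorem poly_ineq (P : ℂ[X]) (D : ℂ) (Z : ℂ → ℂ)
    (hZ : ∀ t, Z t = Complex.exp (D * t) * P.eval (Complex.exp (-t)))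
    (he : ∀ t, Z (-t) = Z t) (h0 : ∀ t, 0 < t.re → Z t ≠ 0) (hz : Z 0 ≠ 0) {x y : ℝ}
    (hx : 0 < x) (hxy : x ≤ y) :
    x ^ 2 * (Real.log ‖Z y‖ - Real.log ‖Z 0‖) ≤
      y ^ 2 * Real.exp (y ^ 2 / 2) * (Real.log ‖Z x‖ - Real.log ‖Z 0‖) := by
  have hP : P ≠ 0 := by
    rintro rfl
    exact hz (by rw [hZ]; simp)
  have hR : ∀ ρ ∈ P.roots, ρ = 0 ∨ (‖ρ‖ = 1 ∧ ρ ≠ 1) := by
    intro ρ hρ
    have h1 : P.eval ρ = 0 := (Polynomial.mem_roots hP).1 hρ
    refine or_iff_not_imp_left.2 fun h2 => ⟨?_, ?_⟩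
    · have h3 : Z (-Complex.log ρ) = 0 := by
        rw [hZ, neg_neg, Complex.exp_log h2, h1, mul_zero]
      have h4 : ¬ 0 < (-Complex.log ρ).re := fun h => h0 _ h h3
      have h5 : ¬ 0 < (Complex.log ρ).re := fun h => h0 _ h (by rw [← he, h3])
      rw [Complex.neg_re, Complex.log_re] at h4
      rw [Complex.log_re] at h5
      have h6 : Real.log ‖ρ‖ = 0 := by linarith [not_lt.1 h4, not_lt.1 h5]
      rw [← Real.exp_log (norm_pos_iff.2 h2), h6, Real.exp_zero]
    · rintro rfl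
      exact hz (by rw [hZ, neg_zero, Complex.exp_zero, h1, mul_zero])
  obtain ⟨i1, i2⟩ := ms_ineq P.roots hR hx hxy
  have hl : 0 < ‖P.leadingCoeff‖ := norm_pos_iff.2 (Polynomial.leadingCoeff_ne_zero.2 hP)
  have ev : ∀ w : ℂ, ‖P.eval w‖ = ‖P.leadingCoeff‖ * (P.roots.map fun ρ => ‖w - ρ‖).prod := by
    intro w
    rw [(IsAlgClosed.splits P).eval_eq_prod_roots w, norm_mul]
    congr 1
    induction P.roots using Multiset.induction_on with
    | empty => simp
    | cons a s ih => simp [ih]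
  have key : ∀ t : ℝ, 2 * Real.log ‖Z t‖ =
      2 * Real.log ‖P.leadingCoeff‖ + Real.log (FF P.roots t) := by
    intro t
    have h1 : ‖Z t‖ * ‖Z t‖ = ‖P.leadingCoeff‖ ^ 2 * FF P.roots t := by
      nth_rewrite 2 [← he]
      rw [hZ, hZ, norm_mul, norm_mul, ev, ev, neg_neg, FF, Multiset.prod_map_mul]
      have : ‖Complex.exp (D * t)‖ * ‖Complex.exp (D * -t)‖ = 1 := by
        rw [← norm_mul, ← Complex.exp_add]
        simp
      linear_combination (‖P.leadingCoeff‖ ^ 2 *
        ((P.roots.map fun ρ => ‖Complex.exp (-t) - ρ‖).prod *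
          (P.roots.map fun ρ => ‖Complex.exp t - ρ‖).prod)) * this
    have h2 := congrArg Real.log h1
    rw [← sq, Real.log_pow, Real.log_mul (by positivity) (i1 t).ne', Real.log_pow] at h2
    exact_mod_cast h2
  have k0 := key 0
  have kx := key x
  have ky := key y
  rw [Complex.ofReal_zero] at k0
  have e1 : Real.log ‖Z y‖ - Real.log ‖Z 0‖ =
      (Real.log (FF P.roots y) - Real.log (FF P.roots 0)) / 2 := by linarith
  have e2 : Real.log ‖Z x‖ - Real.log ‖Z 0‖ =
      (Real.log (FF P.roots x) - Real.log (FF P.roots 0)) / 2 := by linarith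
  rw [e1, e2]
  linarith

variable {V : Type} [Fintype V] [DecidableEq V]

theorem ZW_poly (l : List (V × V)) (a b : ℝ) (N : ℕ) : ∃ (P : ℂ[X]) (D : ℂ), ∀ t : ℂ,
    ZW l a b N (fun _ => t / 2) = Complex.exp (D * t) * P.eval (Complex.exp (-t)) := by
  refine ⟨(((gprod l a b).map C * Matrix.diagonal fun σ : V → Fin 2 =>
    ∏ y, if σ y = 0 then (1 : ℂ[X]) else X) ^ N).trace, N * (Fintype.card V / 2), fun t => ?_⟩
  set w := Complex.exp (-t) with hw
  have h1 : ∀ M : Matrix (V → Fin 2) (V → Fin 2) ℂ[X],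
      M.trace.eval w = ((evalRingHom w).mapMatrix M).trace := fun M => by
    simp [Matrix.trace, Polynomial.eval_finset_sum]
  have h2 : (evalRingHom w).mapMatrix ((gprod l a b).map C) = gprod l a b := by
    ext i j
    simp
  have h3 : Complex.exp (Fintype.card V / 2 * t) • (evalRingHom w).mapMatrix
      (Matrix.diagonal fun σ : V → Fin 2 => ∏ y, if σ y = 0 then (1 : ℂ[X]) else X) =
      fieldMat fun _ : V => t / 2 := by
    rw [fieldMat_eq_diagonal, RingHom.mapMatrix_apply, Matrix.diagonal_map (map_zero _),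
      ← Matrix.diagonal_smul]
    congr 1
    funext σ
    have e : Complex.exp (Fintype.card V / 2 * t) = ∏ _y : V, Complex.exp (t / 2) := by
      rw [Finset.prod_const, Finset.card_univ, ← Complex.exp_nat_mul]
      congr 1
      ring
    rw [Pi.smul_apply, smul_eq_mul, map_prod, e, ← Finset.prod_mul_distrib]
    refine Finset.prod_congr rfl fun y _ => ?_
    generalize σ y = i
    fin_cases i
    · simp [fieldFac]
    · simp only [fieldFac, Fin.mk_one, one_ne_zero, if_false, coe_evalRingHom, eval_X, hw,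
        ← Complex.exp_add]
      simp only [Matrix.of_apply, Matrix.cons_val', Matrix.cons_val_one, Matrix.cons_val_fin_one]
      congr 1
      ring
  rw [h1, map_pow, map_mul, h2, ZW, step, ← h3, Matrix.mul_smul, _root_.smul_pow, Matrix.trace_smul,
    smul_eq_mul, ← Complex.exp_nat_mul, mul_assoc]

theorem ZW_neg (l : List (V × V)) (a b : ℝ) (N : ℕ) (s : V → ℂ) :
    ZW l a b N (fun y => -s y) = ZW l a b N s := by
  let e : (V → Fin 2) ≃ (V → Fin 2) := Equiv.arrowCongr (Equiv.refl V) (Equiv.swap 0 1)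
  let φ := Matrix.reindexAlgEquiv ℂ ℂ e
  have hφ : ∀ (A : Matrix (V → Fin 2) (V → Fin 2) ℂ) σ τ, φ A σ τ = A (e.symm σ) (e.symm τ) :=
    fun _ _ _ => rfl
  have h1 : ∀ A : Matrix (V → Fin 2) (V → Fin 2) ℂ, (φ A).trace = A.trace := fun A =>
    Equiv.sum_comp e.symm fun σ => A σ σ
  have h2 : ∀ x y : V, φ (swapMat x y) = swapMat x y := fun x y => by
    ext σ τ
    rw [hφ]
    simp only [swapMat, Matrix.of_apply]
    have : e.symm σ ∘ Equiv.swap x y = e.symm (σ ∘ Equiv.swap x y) := rfl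
    simp only [this, EmbeddingLike.apply_eq_iff_eq]
  have h3 : φ (gprod l a b) = gprod l a b := by
    rw [gprod, map_list_prod, List.map_map]
    congr 1
    refine List.map_congr_left fun e _ => ?_
    simp only [Function.comp_apply, gate, map_add, map_smul, map_one, h2]
  have h4 : φ (fieldMat s) = fieldMat fun y => -s y := by
    ext σ τ
    rw [hφ]
    simp only [fieldMat, prodMat, Matrix.of_apply]
    refine Finset.prod_congr rfl fun y _ => ?_
    have : ∀ σ : V → Fin 2, e.symm σ y = Equiv.swap 0 1 (σ y) := fun _ => rfl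
    rw [this, this]
    generalize σ y = i
    generalize τ y = j
    fin_cases i <;> fin_cases j <;> simp [fieldFac]
  rw [ZW, ZW, ← h1 (step l a b s ^ N), map_pow, step, step, map_mul, h3, h4]

/-- The inequality behind the Gaussian bound. -/
def Gau (F : ℝ → ℝ) : Prop :=
  (∀ h, F (-h) = F h) ∧ ∀ x y, 0 < x → x ≤ y → x ^ 2 * (F y - F 0) ≤ y ^ 2 * (F x - F 0)

theorem Gau.lim {F : ℕ → ℝ → ℝ} {G : ℝ → ℝ} (hF : ∀ m, Gau (F m))
    (h : ∀ t, Tendsto (fun m => F m t) atTop (𝓝 (G t))) : Gau G := by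
  refine ⟨fun t => tendsto_nhds_unique (h (-t)) ?_, fun x y hx hxy => ?_⟩
  · simp only [(hF _).1]
    exact h t
  · exact le_of_tendsto_of_tendsto' (((h y).sub (h 0)).const_mul _)
      (((h x).sub (h 0)).const_mul _) fun m => (hF m).2 x y hx hxy

theorem gau_half (L : List (V × V)) {β : ℝ} (hβ : 0 < β) :
    Gau fun h => Real.log (LY.ZS L β fun _ => h) := by
  let Z : ℕ → ℂ → ℂ := fun N t => ZW L (1 - (1 - Real.exp (-(β / N))) / 2)
    ((1 - Real.exp (-(β / N))) / 2) N fun _ => t / 2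
  have he : ∀ N t, Z N (-t) = Z N t := fun N t => by
    simp only [Z, neg_div]
    exact ZW_neg _ _ _ _ _
  have hT : ∀ h : ℝ, Tendsto (fun N : ℕ => Z N ((β * h / N : ℝ) : ℂ)) atTop
      (𝓝 ((LY.ZS L β fun _ => h : ℝ) : ℂ)) := by
    intro h
    have h1 := (Complex.continuous_ofReal.tendsto _).comp (LY.ZS_tendsto L β fun _ => h)
    refine h1.congr fun N => ?_
    rw [Function.comp_apply, LY.trace_Z]
    have e : (fun _ : V => ((β * h / N / 2 : ℝ) : ℂ)) = fun _ => ((β * h / N : ℝ) : ℂ) / 2 := by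
      funext y
      push_cast
      rfl
    apply Complex.ext
    · rw [Complex.ofReal_re, e]
    · rw [Complex.ofReal_im]
      simp only [Z, ← e]
      exact (ZW_im fun _ => Complex.ofReal_im _).symm
  have hL : ∀ h : ℝ, Tendsto (fun N : ℕ => Real.log ‖Z N ((β * h / N : ℝ) : ℂ)‖) atTop
      (𝓝 (Real.log (LY.ZS L β fun _ => h))) := by
    intro h
    have h1 := (hT h).norm
    rw [Complex.norm_real, Real.norm_eq_abs, abs_of_pos (LY.ZS_pos _ _ _)] at h1
    exact h1.log (LY.ZS_pos _ _ _).ne'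
  refine ⟨fun h => tendsto_nhds_unique (hL (-h)) ((hL h).congr fun N => ?_),
    fun x y hx hxy => ?_⟩
  · rw [← he]
    congr 3
    push_cast
    ring
  · have h1 : Tendsto (fun N : ℕ => Real.exp ((β * y / N) ^ 2 / 2)) atTop (𝓝 1) := by
      have := (((tendsto_const_div_atTop_nhds_zero_nat (β * y)).pow 2).div_const 2).rexp
      simpa using this
    have h2 := ((hL x).sub (hL 0)).const_mul (y ^ 2)
    have h3 := h1.mul h2
    rw [one_mul] at h3
    refine le_of_tendsto_of_tendsto (((hL y).sub (hL 0)).const_mul (x ^ 2)) h3 ?_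
    have h4 := (hT 0).eventually_ne (Complex.ofReal_ne_zero.2 (LY.ZS_pos _ _ _).ne')
    filter_upwards [h4, eventually_ge_atTop 1] with N hN hN1
    have hN0 : (0 : ℝ) < N := by exact_mod_cast hN1
    have hp0 : Real.exp (-(β / N)) ≤ 1 := Real.exp_le_one_iff.mpr (by
      have : 0 ≤ β / N := by positivity
      linarith)
    have hp1 := Real.exp_pos (-(β / N))
    obtain ⟨P, D, hP⟩ := ZW_poly L (1 - (1 - Real.exp (-(β / N))) / 2)
      ((1 - Real.exp (-(β / N))) / 2) N
    have e0 : ((β * 0 / N : ℝ) : ℂ) = 0 := by simp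
    rw [e0] at hN ⊢
    have h5 := poly_ineq P D (Z N) hP (he N) (fun t ht => by
      obtain ⟨n, rfl⟩ : ∃ n, N = n + 1 := ⟨N - 1, by omega⟩
      refine (strict_pow (strict_step (g := 0) (by simp) L (by linarith) (by linarith)
        (by linarith) fun _ => ?_) n).trace_ne_zero
      simpa using ht) hN (x := β * x / N) (y := β * y / N) (by positivity) (by gcongr)
    have h6 : (0 : ℝ) < (β / N) ^ 2 := by positivity
    refine le_of_mul_le_mul_left ?_ h6
    calc _ = (β * x / N) ^ 2 * (Real.log ‖Z N ((β * y / N : ℝ) : ℂ)‖ - Real.log ‖Z N 0‖) := by ring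
      _ ≤ _ := h5
      _ = _ := by ring

end

end Vale.Agent.N361
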