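import Vale.Agent.P361.Bd6.B10

/-!
# The ladder of scales for fields down to `n ^ (δ - 3)`
-/

set_option linter.all false

namespace Vale.Agent.N361

open Finset Vale.Agent.P361.LRO _root_.P361.LRO Vale.Agent.P361.LRO.Ind Vale.Agent.P361.LRO.Ind3

theorem one_le_S {x lam : ℝ} (hx : 1 ≤ x) (hlam : 0 < lam) : 1 ≤ 1 * (x + 2 / lam) ^ 3 := by
  have : 0 ≤ 2 / lam := by positivity
  have h3 : (1 : ℝ) ≤ (x + 2 / lam) ^ 3 := one_le_pow₀ (by linarith)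
  linarith

/-- One rung, without numbers. -/
theorem rung (c1 : ℝ) (hc1 : 0 < c1) : ∃ C : ℝ, 0 < C ∧ ∀ (n N W e : ℕ) [NeZero n]
    (K h0 lam ε : ℝ) (o : Tor n) (b : Finset (Tor n)) (h : Tor n → ℝ)
    (c : (Tor n → ℝ) → Nd n N → Nd n N → ℝ) (r r' S : ℕ) (A B : ℝ),
    0 < W → N = 4 * W → e ≤ r → r ≤ r' → r' ≤ S → 8 * 3 ^ S < n → 0 < lam →
    Real.exp (-(lam * (3 * (3 : ℝ) ^ S))) ≤ h0 →
    (∀ g, Fam n h0 lam g → Local3 n N W e K c1 b g (c g)) → LowE n N b 1 h0 lam ε c →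
    Fam n h0 lam h → 0 ≤ B → C * B ≤ 9 ^ e * 3 ^ r → C * B ≤ A → C * B ^ 3 ≤ A * (27 ^ e) ^ 2 →
    LBn (c (HH n lam o (3 ^ r') h)) (EE6 n N o b (3 ^ r')) (GG6 n N o (3 ^ S)) A →
    LBn (c (HH n lam o (3 ^ r) h)) (EE6 n N o b (3 ^ r)) (GG6 n N o (3 ^ S))
      ((1 * ((3 : ℝ) ^ r' + 2 / lam) ^ 3) ^ (-(4 * ε)) * B - 2 * ε) := by
  obtain ⟨C, hC, hstep⟩ := step_mid3 c1 hc1
  refine ⟨C, hC, ?_⟩
  intro n N W e _ K h0 lam ε o b h c r r' S A B hW hN her hr hrS hSn hlam0 hsm hloc hlow hfam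
    hB0 hB1 hB2 hB3 hLB
  have h4rS : (3 : ℕ) ^ r' ≤ 3 ^ S := Nat.pow_le_pow_right (by norm_num) hrS
  have hrr : (3 : ℕ) ^ r ≤ 3 ^ r' := Nat.pow_le_pow_right (by norm_num) hr
  have h4rn : (3 : ℕ) ^ r' < n := by omega
  have hrn : (3 : ℕ) ^ r ≤ n := by omega
  have hfam4 : Fam n h0 lam (HH n lam o (3 ^ r') h) := Fam_HH hlam0.le o (by positivity) hfam
  have hfam1 : Fam n h0 lam (HH n lam o (3 ^ r) h) := Fam_HH hlam0.le o (by positivity) hfam
  have hstep1 := hstep n N W e K o b (HH n lam o (3 ^ r') h)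
    (c (HH n lam o (3 ^ r') h)) r r' (GG6 n N o (3 ^ S)) A B hW hN her hr h4rn
    (fun x => (hfam4.1 x).2) (fun x hx => HH_one hlam0.le o h4rn.le hfam hx) (hloc _ hfam4)
    (disj_EG o _ h4rS hSn.le) hLB hB0 hB1 hB2 hB3
  have hlow1 := hlow.prim (HH n lam o (3 ^ r') h) (HH n lam o (3 ^ r) h) hfam4 hfam1
    (fun x => HH_mono hlam0.le o hrr h x)
    (EE6 n N o b (3 ^ r)) (GG6 n N o (3 ^ S)) (disj_EG o _ (hrr.trans h4rS) hSn.le)
    Finset.subset_union_left (by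
      intro z hz hz0
      rcases mem_union.1 hz with hz | hz
      · unfold EE6 at hz
        rcases mem_union.1 hz with hz | hz
        · exfalso
          apply hz0
          unfold hatb at hz
          exact mem_singleton.1 (mem_product.1 hz).1
        · have hx := (mem_product.1 hz).2
          rw [HH_one hlam0.le o hrn hfam hx]
          have hx4 : z.2 ∈ cube n o (3 ^ r') := by
            unfold cube at hx ⊢
            rw [mem_image] at hx ⊢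
            obtain ⟨y, -, hy⟩ := hx
            exact ⟨fun i => ⟨(y i : ℕ), lt_of_lt_of_le (y i).2 hrr⟩, mem_univ _, hy⟩
          rw [HH_one hlam0.le o h4rn.le hfam hx4]
      · unfold GG6 at hz
        have hx := (mem_product.1 hz).2
        rw [HH_ground hlam0.le o (hrr.trans h4rS) hSn.le hfam (by push_cast; exact hsm) hx,
          HH_ground hlam0.le o h4rS hSn.le hfam (by push_cast; exact hsm) hx])
    (((3 ^ r' : ℕ) + 2 / lam) ^ 3)
    (one_le_S (by push_cast; exact one_le_pow₀ (by norm_num)) hlam0)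
    (sum_lowered hlam0 o hrr h) B hB0 hstep1
  push_cast at hlow1
  exact hlow1

/-- The last rung, without numbers. -/
theorem last (c1 : ℝ) (hc1 : 0 < c1) : ∃ C : ℝ, 0 < C ∧ ∀ (n N W e : ℕ) [NeZero n]
    (K h0 lam ε : ℝ) (o : Tor n) (a : ℕ) (h : Tor n → ℝ)
    (c : (Tor n → ℝ) → Nd n N → Nd n N → ℝ) (r S : ℕ) (A : ℝ),
    0 < W → N = 4 * W → e ≤ a → a ≤ r → r ≤ S → 8 * 3 ^ S < n → 0 < lam →
    Real.exp (-(lam * (3 * (3 : ℝ) ^ S))) ≤ h0 →
    0 < K → C * K ≤ 27 ^ a → C * K ≤ 9 ^ e * 3 ^ a → C * K ≤ A → C * K ^ 3 ≤ A * (27 ^ e) ^ 2 →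
    (∀ g, Fam n h0 lam g → Local3 n N W e K c1 (cube n o (3 ^ a)) g (c g)) →
    LowE n N (cube n o (3 ^ a)) 1 h0 lam ε c → Fam n h0 lam h →
    LBn (c (HH n lam o (3 ^ r) h)) (EE6 n N o (cube n o (3 ^ a)) (3 ^ r)) (GG6 n N o (3 ^ S)) A →
    LBn (c h) (hatb N (cube n o (3 ^ a))) (GG6 n N o (3 ^ S))
      ((1 * ((3 : ℝ) ^ r + 2 / lam) ^ 3) ^ (-(4 * ε)) * (K / C) - 2 * ε) := by
  obtain ⟨C, hC, hstep⟩ := step_last3 c1 hc1
  refine ⟨C, hC, ?_⟩
  intro n N W e _ K h0 lam ε o a h c r S A hW hN hea har hrS hSn hlam0 hsm hK0 hCK hCK2 hA1 hA2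
    hloc hlow hfam hLB
  have h3rS : (3 : ℕ) ^ r ≤ 3 ^ S := Nat.pow_le_pow_right (by norm_num) hrS
  have h3rn : (3 : ℕ) ^ r < n := by omega
  have hfamH : Fam n h0 lam (HH n lam o (3 ^ r) h) := Fam_HH hlam0.le o (by positivity) hfam
  have hstep1 := hstep n N W e K o a (HH n lam o (3 ^ r) h) (c (HH n lam o (3 ^ r) h)) r
    (GG6 n N o (3 ^ S)) A hW hN hea har h3rn hK0 hCK hCK2
    (fun x => (hfamH.1 x).2) (fun x hx => HH_one hlam0.le o h3rn.le hfam hx) (hloc _ hfamH)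
    (disj_EG o _ h3rS hSn.le) hLB hA1 hA2
  have hlow1 := hlow.prim (HH n lam o (3 ^ r) h) h hfamH hfam (fun x => le_max_left _ _)
    (hatb N (cube n o (3 ^ a))) (GG6 n N o (3 ^ S)) (disj_hat o _ _) (Finset.Subset.refl _) (by
      intro z hz hz0
      rcases mem_union.1 hz with hz | hz
      · exfalso
        apply hz0
        unfold hatb at hz
        exact mem_singleton.1 (mem_product.1 hz).1
      · unfold GG6 at hz
        symm
        exact HH_ground hlam0.le o h3rS hSn.le hfam (by push_cast; exact hsm)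
          (mem_product.1 hz).2)
    (((3 ^ r : ℕ) + 2 / lam) ^ 3)
    (one_le_S (by push_cast; exact one_le_pow₀ (by norm_num)) hlam0)
    (sum_lowered' hlam0 o (3 ^ r) h) (K / C) (by positivity) hstep1
  push_cast at hlow1
  exact hlow1

/-- The top, without numbers. -/
theorem top (c1 : ℝ) (hc1 : 0 < c1) : ∃ C : ℝ, 0 < C ∧ ∀ (n N W e : ℕ) [NeZero n]
    (K h0 lam ε : ℝ) (o : Tor n) (b : Finset (Tor n)) (h : Tor n → ℝ)
    (c : (Tor n → ℝ) → Nd n N → Nd n N → ℝ) (s : ℕ),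
    0 < W → N = 4 * W → e ≤ s → 8 * 3 ^ s < n → 0 < h0 → h0 ≤ 1 → 0 ≤ lam →
    (∀ g, Fam n h0 lam g → Local3 n N W e K c1 b g (c g)) → LowE n N b 1 h0 lam ε c →
    Fam n h0 lam h →
    LBn (c (HH n lam o (3 ^ s) h)) (EE6 n N o b (3 ^ s)) (GG6 n N o (3 ^ s))
      (1 / (h0 ^ (-(4 * ε)) * (C / (9 ^ e * 3 ^ s) + 8 / (h0 * ((3 : ℝ) ^ s) ^ 3)))) := by
  obtain ⟨C, hC, hstep⟩ := step_top3 c1 hc1
  refine ⟨C, hC, ?_⟩
  intro n N W e _ K h0 lam ε o b h c s hW hN hes hn hh0 hh1 hlam0 hLoc hLow hh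
  have h3s : 0 < 3 ^ s := by positivity
  have hsn : 3 ^ s ≤ n := by omega
  have hN0 : 0 < N := by omega
  have hN0' : (0 : ℝ) < N := by exact_mod_cast hN0
  have h3s' : (0 : ℝ) < (3 : ℝ) ^ s := by positivity
  have hsum : ∀ t : ℝ, ∑ z : Nd n N, (if z ∈ GG6 n N o (3 ^ s) then t else 0) =
      N * ((3 : ℝ) ^ s) ^ 3 * t := fun t => by
    rw [Finset.sum_ite_mem, Finset.univ_inter, Finset.sum_const, nsmul_eq_mul]
    unfold GG6
    rw [Finset.card_product, Vale.Agent.P361.LRO.Ind.card_cube _ _ hsn,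
      Finset.filter_ne', Finset.card_erase_of_mem (Finset.mem_univ _), Finset.card_univ,
      Fintype.card_fin]
    push_cast
    rfl
  have hH := Fam_HH (h := h) hlam0 o h3s hh
  have h1 := Fam_one (n := n) (h0 := h0) (lam := lam) hh1 hlam0
  have hR := hstep n N W e K o b (c fun _ => 1) s hW hN hes hn (hLoc _ h1)
  set q : Nd n N → ℝ :=
    fun z => if z ∈ GG6 n N o (3 ^ s) then 1 / ((N : ℝ) * ((3 : ℝ) ^ s) ^ 3) else 0 with hq
  have hdisj := disj_EG (N := N) o b (le_refl (3 ^ s)) (by omega : 8 * 3 ^ s ≤ n)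
  have hq1 : ∑ z, q z = 1 := by
    rw [hq, hsum]
    field_simp
  have hq2 : ∑ z, q z ^ 2 = 1 / ((N : ℝ) * ((3 : ℝ) ^ s) ^ 3) := by
    have e : ∀ z, q z ^ 2 =
        if z ∈ GG6 n N o (3 ^ s) then (1 / ((N : ℝ) * ((3 : ℝ) ^ s) ^ 3)) ^ 2 else 0 := by
      intro z
      rw [hq]
      dsimp only
      split_ifs <;> simp
    rw [Finset.sum_congr rfl fun z _ => e z, hsum]
    field_simp
  have hdual := hLow.dual hh0 hh1 (HH n lam o (3 ^ s) h) hH (EE6 n N o b (3 ^ s)) q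
    Finset.subset_union_left
    (by
      intro z hz hz0
      unfold EE6 at hz
      rw [Finset.mem_union] at hz
      rcases hz with hz | hz
      · unfold hatb at hz
        rw [Finset.mem_product, Finset.mem_singleton] at hz
        exact absurd hz.1 hz0
      · rw [Finset.mem_product] at hz
        exact HH_one hlam0 o hsn hh hz.2)
    (by
      intro z hz
      have := Finset.disjoint_left.1 hdisj hz
      rw [hq]
      dsimp only
      rw [if_neg this])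
    (by
      intro x
      rw [hq]
      dsimp only
      rw [if_neg]
      unfold GG6
      rw [Finset.mem_product, Finset.mem_filter]
      rintro ⟨⟨_, h0⟩, _⟩
      exact h0 rfl)
    (by
      intro z
      rw [hq]
      dsimp only
      split_ifs <;> positivity)
    hq1 (C / (9 ^ e * 3 ^ s)) (by positivity) hR
  rw [hq2] at hdual
  have e4 : 8 * (N : ℝ) / (1 * h0) * (1 / ((N : ℝ) * ((3 : ℝ) ^ s) ^ 3)) =
      8 / (h0 * ((3 : ℝ) ^ s) ^ 3) := by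
    field_simp
  rw [e4] at hdual
  refine LBn_of_RBn (by positivity) ?_ hdual
  intro x hx
  rw [hq]
  dsimp only
  rw [if_neg hx]

/-! ### Numbers -/

theorem p3 {x y : ℝ} (h : x ≤ y) : (3 : ℝ) ^ x ≤ 3 ^ y :=
  Real.rpow_le_rpow_of_exponent_le (by norm_num) h

theorem p3n (r : ℕ) : (3 : ℝ) ^ r = 3 ^ (r : ℝ) := (Real.rpow_natCast _ _).symm

theorem p3a (x y : ℝ) : (3 : ℝ) ^ x * 3 ^ y = 3 ^ (x + y) := (Real.rpow_add (by norm_num) _ _).symm

theorem p3m (x y : ℝ) : ((3 : ℝ) ^ x) ^ y = 3 ^ (x * y) := (Real.rpow_mul (by norm_num) _ _).symm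

theorem p31 {x : ℝ} (h : 0 ≤ x) : (1 : ℝ) ≤ 3 ^ x := Real.one_le_rpow (by norm_num) h

theorem loss {lam ε : ℝ} {e r : ℕ} (hlam : 1 / 3 ^ (10 * e) ≤ lam) (hr : 10 * e ≤ r)
    (hr1 : 1 ≤ r) (hε : 0 ≤ ε) :
    (3 : ℝ) ^ (-(24 * ε * r)) ≤ (1 * ((3 : ℝ) ^ r + 2 / lam) ^ 3) ^ (-(4 * ε)) := by
  have hlam0 : 0 < lam := lt_of_lt_of_le (by positivity) hlam
  have h2 : 2 / lam ≤ 2 * 3 ^ (10 * e) := by
    rw [div_le_iff₀ hlam0]
    have := mul_le_mul_of_nonneg_left hlam (show (0 : ℝ) ≤ 2 * 3 ^ (10 * e) by positivity)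
    refine le_trans ?_ this
    rw [mul_one_div, mul_div_assoc, div_self (by positivity), mul_one]
  have h3 : (3 : ℝ) ^ (10 * e) ≤ 3 ^ r := pow_le_pow_right₀ (by norm_num) hr
  have h4 : (3 : ℝ) ^ r + 2 / lam ≤ 3 ^ (2 * r) := by
    calc (3 : ℝ) ^ r + 2 / lam ≤ 3 * 3 ^ r := by linarith
      _ = 3 ^ (r + 1) := by rw [pow_succ]; ring
      _ ≤ 3 ^ (2 * r) := pow_le_pow_right₀ (by norm_num) (by omega)
  have h6 : 1 * ((3 : ℝ) ^ r + 2 / lam) ^ 3 ≤ 3 ^ (6 * r) := by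
    calc 1 * ((3 : ℝ) ^ r + 2 / lam) ^ 3 ≤ (3 ^ (2 * r)) ^ 3 := by
          rw [one_mul]; exact pow_le_pow_left₀ (by positivity) h4 3
      _ = _ := by rw [← pow_mul]; congr 1; ring
  refine le_trans (le_of_eq ?_) (Real.rpow_le_rpow_of_nonpos (by positivity) h6 (by linarith))
  rw [p3n, p3m]
  congr 1
  push_cast
  ring

theorem ground {h0 lam : ℝ} {e S : ℕ} (hh0 : 0 < h0) (hlam : 1 / 3 ^ (10 * e) ≤ lam)
    (he : 1 ≤ e) (hS : 20 * e ≤ S) (hh : h0⁻¹ ≤ 3 ^ (3 * (S : ℝ))) :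
    Real.exp (-(lam * (3 * (3 : ℝ) ^ S))) ≤ h0 := by
  obtain ⟨t, rfl⟩ := Nat.exists_eq_add_of_le (show 10 * e ≤ S by omega)
  have h1 : ∀ k : ℕ, 4 * (k + 2) ≤ 3 ^ (k + 2) := fun k => by
    induction k with
    | zero => norm_num
    | succ k ih => rw [show k + 1 + 2 = k + 2 + 1 by ring, pow_succ]; omega
  have h2 : 2 * (10 * e + t) ≤ 3 ^ t := by
    have := h1 (t - 2)
    rw [show t - 2 + 2 = t by omega] at this
    omega
  have h3 : 2 * ((10 * e + t : ℕ) : ℝ) ≤ 3 ^ t := by exact_mod_cast h2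
  have h4 : (3 : ℝ) ^ t ≤ lam * 3 ^ (10 * e + t) := by
    have := mul_le_mul_of_nonneg_right hlam (show (0 : ℝ) ≤ 3 ^ (10 * e + t) by positivity)
    refine le_trans (le_of_eq ?_) this
    rw [pow_add]
    field_simp
  have h5 : Real.log 3 ≤ 2 := by
    have := Real.log_le_sub_one_of_pos (show (0 : ℝ) < 3 by norm_num)
    linarith
  rw [Real.exp_neg, inv_le_comm₀ (Real.exp_pos _) hh0]
  refine hh.trans ?_
  rw [Real.rpow_def_of_pos (by norm_num)]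
  refine Real.exp_le_exp.2 ?_
  have h6 : (0 : ℝ) ≤ ((10 * e + t : ℕ) : ℝ) := Nat.cast_nonneg _
  nlinarith

theorem top_num {C h0 ε γ : ℝ} {e S : ℕ} (hC : 0 < C) (he : C + 8 ≤ 3 ^ e) (hh0 : 0 < h0)
    (hγ : 0 < γ) (hγ1 : γ ≤ 1 / 8) (hh : h0⁻¹ ≤ 3 ^ ((3 - 4 * γ) * S)) (hε : 0 ≤ ε)
    (hε1 : 12 * ε ≤ γ) (hS : (e : ℝ) ≤ 2 * γ * S) :
    (3 : ℝ) ^ (γ * S) ≤
      1 / (h0 ^ (-(4 * ε)) * (C / (9 ^ e * 3 ^ S) + 8 / (h0 * ((3 : ℝ) ^ S) ^ 3))) := by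
  have hS0 : (0 : ℝ) ≤ S := Nat.cast_nonneg _
  rw [le_div_iff₀ (by positivity)]
  have e1 : h0 ^ (-(4 * ε)) ≤ 3 ^ (γ * S) := by
    rw [Real.rpow_neg hh0.le, ← Real.inv_rpow hh0.le]
    refine (Real.rpow_le_rpow (by positivity) hh (by positivity)).trans ?_
    rw [p3m]
    refine p3 ?_
    have := mul_nonneg hS0 hε
    have := mul_nonneg (mul_nonneg hS0 hε) hγ.le
    nlinarith
  have f1 : C / (9 ^ e * 3 ^ S) ≤ C * 3 ^ (-(4 * γ * S)) := by
    have h9 : (1 : ℝ) ≤ 9 ^ e := one_le_pow₀ (by norm_num)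
    rw [div_le_iff₀ (by positivity), p3n S]
    have h1 : (1 : ℝ) ≤ 3 ^ (-(4 * γ * S)) * 3 ^ (S : ℝ) := by
      rw [p3a]
      exact p31 (by nlinarith)
    have h2 : 1 * 1 ≤ 9 ^ e * ((3 : ℝ) ^ (-(4 * γ * S)) * 3 ^ (S : ℝ)) :=
      mul_le_mul h9 h1 (by norm_num) (by positivity)
    nlinarith
  have f2 : 8 / (h0 * ((3 : ℝ) ^ S) ^ 3) ≤ 8 * 3 ^ (-(4 * γ * S)) := by
    have g1 : 8 / (h0 * ((3 : ℝ) ^ S) ^ 3) = 8 * (h0⁻¹ * 3 ^ (-(3 * (S : ℝ)))) := by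
      rw [Real.rpow_neg (by norm_num), ← pow_mul, p3n]
      push_cast
      rw [mul_comm (S : ℝ) 3]
      field_simp
    rw [g1]
    refine mul_le_mul_of_nonneg_left ?_ (by norm_num)
    refine (mul_le_mul_of_nonneg_right hh (by positivity)).trans (le_of_eq ?_)
    rw [p3a]
    congr 1
    ring
  have e2 : C / (9 ^ e * 3 ^ S) + 8 / (h0 * ((3 : ℝ) ^ S) ^ 3) ≤
      3 ^ (e : ℝ) * 3 ^ (-(4 * γ * S)) := by
    rw [p3n] at he
    have := mul_le_mul_of_nonneg_right he (show (0 : ℝ) ≤ 3 ^ (-(4 * γ * S)) by positivity)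
    linarith
  calc _ ≤ (3 : ℝ) ^ (γ * S) * (3 ^ (γ * S) * (3 ^ (e : ℝ) * 3 ^ (-(4 * γ * S)))) := by
        gcongr
    _ ≤ 3 ^ (0 : ℝ) := by
        rw [p3a, p3a, p3a]
        exact p3 (by linarith)
    _ = 1 := Real.rpow_zero _

theorem rung_num {C ε γ : ℝ} {e r r' : ℕ} (hC : 0 < C) (he : 2 * (1 + C) ≤ 3 ^ e)
    (hγ : 0 < γ) (hγ1 : γ ≤ 1 / 8) (hε : 0 ≤ ε) (hε1 : 576 * ε ≤ γ) (h4 : 4 * r ≤ r')
    (h5 : r' ≤ 5 * r) (hr : 24 * (e : ℝ) ≤ γ * r') :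
    C * (3 ^ (γ * r' / 3) / (1 + C)) ≤ 9 ^ e * 3 ^ r ∧
    C * (3 ^ (γ * r' / 3) / (1 + C)) ≤ 3 ^ (γ * r') ∧
    C * (3 ^ (γ * r' / 3) / (1 + C)) ^ 3 ≤ 3 ^ (γ * r') * (27 ^ e) ^ 2 ∧
    (3 : ℝ) ^ (γ * r) ≤ 3 ^ (-(24 * ε * r')) * (3 ^ (γ * r' / 3) / (1 + C)) - 2 * ε := by
  have h4' : 4 * (r : ℝ) ≤ r' := by exact_mod_cast h4
  have h5' : (r' : ℝ) ≤ 5 * r := by exact_mod_cast h5
  have hr0 : (0 : ℝ) ≤ r := Nat.cast_nonneg _
  have hr0' : (0 : ℝ) ≤ r' := Nat.cast_nonneg _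
  have hmain : C * (3 ^ (γ * r' / 3) / (1 + C)) ≤ 3 ^ (γ * r' / 3) := by
    rw [← mul_div_assoc, div_le_iff₀ (by positivity)]
    have : (0 : ℝ) < 3 ^ (γ * r' / 3) := by positivity
    nlinarith
  refine ⟨hmain.trans ?_, hmain.trans (p3 (by nlinarith)), ?_, ?_⟩
  · have h9 : (1 : ℝ) ≤ 9 ^ e := one_le_pow₀ (by norm_num)
    rw [p3n r]
    exact (p3 (by nlinarith)).trans (le_mul_of_one_le_left (by positivity) h9)
  · have h6 : ((3 : ℝ) ^ (γ * r' / 3)) ^ 3 = 3 ^ (γ * r') := by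
      rw [← Real.rpow_natCast, p3m]
      congr 1
      push_cast
      ring
    have h7 : C / (1 + C) ^ 3 ≤ 1 := by
      rw [div_le_one (by positivity)]
      nlinarith [sq_nonneg C, pow_pos hC 3]
    have h8 : (1 : ℝ) ≤ (27 ^ e) ^ 2 := one_le_pow₀ (one_le_pow₀ (by norm_num))
    calc _ = C / (1 + C) ^ 3 * 3 ^ (γ * r') := by rw [div_pow, h6]; ring
      _ ≤ 1 * 3 ^ (γ * r') := by gcongr
      _ ≤ _ := by rw [one_mul]; exact le_mul_of_one_le_right (by positivity) h8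
  · have h1 : (1 : ℝ) ≤ 3 ^ (γ * r) := p31 (by positivity)
    have h2 : 2 * (3 : ℝ) ^ (γ * r) ≤ 3 ^ (-(24 * ε * r')) * (3 ^ (γ * r' / 3) / (1 + C)) := by
      rw [← mul_div_assoc, le_div_iff₀ (by positivity), p3a]
      rw [p3n] at he
      calc _ = 2 * (1 + C) * 3 ^ (γ * r) := by ring
        _ ≤ 3 ^ (e : ℝ) * 3 ^ (γ * r) := by gcongr
        _ ≤ _ := by
          rw [p3a]
          refine p3 ?_
          have := mul_le_mul_of_nonneg_right hε1 hr0'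
          have := mul_le_mul_of_nonneg_left h4' hγ.le
          linarith
    linarith

theorem last_num {C K A : ℝ} {e : ℕ} (hC : 0 < C) (hCe : C ≤ 3 ^ e) (hK : 0 ≤ K)
    (hKe : K ≤ 27 ^ (2 * e)) (hA : 3 ^ (19 * e) ≤ A) :
    C * K ≤ A ∧ C * K ^ 3 ≤ A * (27 ^ e) ^ 2 := by
  have hK' : K ≤ 3 ^ (6 * e) := by
    refine hKe.trans_eq ?_
    rw [show (27 : ℝ) = 3 ^ 3 by norm_num, ← pow_mul]
    congr 1
    ring
  have h8 : (1 : ℝ) ≤ (27 ^ e) ^ 2 := one_le_pow₀ (one_le_pow₀ (by norm_num))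
  constructor
  · calc C * K ≤ 3 ^ e * 3 ^ (6 * e) := mul_le_mul hCe hK' hK (by positivity)
      _ = 3 ^ (7 * e) := by rw [← pow_add]; congr 1; ring
      _ ≤ 3 ^ (19 * e) := pow_le_pow_right₀ (by norm_num) (by omega)
      _ ≤ _ := hA
  · calc C * K ^ 3 ≤ 3 ^ e * (3 ^ (6 * e)) ^ 3 :=
          mul_le_mul hCe (pow_le_pow_left₀ hK hK' 3) (by positivity) (by positivity)
      _ = 3 ^ (19 * e) := by rw [← pow_mul, ← pow_add]; congr 1; ring
      _ ≤ A := hA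
      _ ≤ _ := le_mul_of_one_le_right (le_trans (by positivity) hA) h8

/-- The network chapter for fields down to `n ^ (δ - 3)`. -/
theorem block {δ : ℝ} (hδ : 0 < δ) (hδ1 : δ ≤ 1) (c1 : ℝ) (hc1 : 0 < c1) :
    ∃ (e0 : ℕ) (C5 c3 c4 : ℝ), 1 ≤ e0 ∧ 0 < C5 ∧
    0 < c3 ∧ 0 < c4 ∧ ∀ e : ℕ, e0 ≤ e → ∃ n0 : ℕ, ∀ (n N W : ℕ) [NeZero n]
    (K h0 lam ε : ℝ) (o : Tor n) (a : ℕ) (h : Tor n → ℝ)
    (c : (Tor n → ℝ) → Nd n N → Nd n N → ℝ),
    n0 ≤ n → 0 < W → N = 4 * W → e ≤ a → a ≤ 2 * e →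
    1 ≤ K → K ≤ 27 ^ (2 * e) → C5 * K ≤ 27 ^ a → C5 * K ≤ 9 ^ e * 3 ^ a →
    (n : ℝ) ^ (δ - 3) ≤ h0 → h0 ≤ 1 → 1 / 3 ^ (10 * e) ≤ lam → 0 ≤ ε → ε * e ≤ c4 →
    (∀ g, Fam n h0 lam g → Local3 n N W e K c1 (cube n o (3 ^ a)) g (c g)) →
    LowE n N (cube n o (3 ^ a)) 1 h0 lam ε c →
    Fam n h0 lam h →
    c3 * K ≤ netK (c h) (fun z => if z ∈ hatb N (cube n o (3 ^ a)) then 1 else 0) := by
  obtain ⟨C1, hC1, H1⟩ := top c1 hc1
  obtain ⟨C2, hC2, H2⟩ := rung c1 hc1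
  obtain ⟨C, hC, H3⟩ := last c1 hc1
  obtain ⟨γ, hγe⟩ : ∃ γ : ℝ, γ = δ / 8 := ⟨_, rfl⟩
  have hγ : 0 < γ := by linarith
  have hγ1 : γ ≤ 1 / 8 := by linarith
  obtain ⟨R, hR⟩ := exists_nat_ge (30 / γ)
  rw [div_le_iff₀ hγ] at hR
  have hR1 : (20 : ℝ) ≤ R := by nlinarith [(Nat.cast_nonneg R : (0 : ℝ) ≤ R)]
  have hR2 : 20 ≤ R := by exact_mod_cast hR1
  obtain ⟨e1, he1⟩ := pow_unbounded_of_one_lt (C1 + 8 + 2 * (1 + C2) + C)
    (show (1 : ℝ) < 3 by norm_num)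
  refine ⟨e1 + 1, C, 1 / (4 * C), min (1 / (240 * R)) (min (γ / 576) (1 / (8 * C))), by omega, hC,
    by positivity, by positivity, fun e he => ⟨8 * 3 ^ (R * e) + 1, ?_⟩⟩
  intro n N W _ K h0 lam ε o a h c hn hW hN hea ha2 hK hK2 hK3 hK4 hh0 hh1 hlam hε hεl hloc hlow
    hfam
  have he0 : 1 ≤ e := by omega
  have he0' : (1 : ℝ) ≤ e := by exact_mod_cast he0
  have hCe : C1 + 8 + 2 * (1 + C2) + C ≤ 3 ^ e :=
    he1.le.trans (pow_le_pow_right₀ (by norm_num) (by omega))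
  have hnpos : (0 : ℝ) < n := by exact_mod_cast Nat.pos_of_ne_zero (NeZero.ne n)
  have hh0pos : 0 < h0 := lt_of_lt_of_le (Real.rpow_pos_of_pos hnpos _) hh0
  have hlam0 : 0 < lam := lt_of_lt_of_le (by positivity) hlam
  have hεe : ε ≤ ε * e := le_mul_of_one_le_right hε he0'
  have hε1 : 240 * R * (ε * e) ≤ 1 := by
    have := hεl.trans (min_le_left _ _)
    rw [le_div_iff₀ (by positivity)] at this
    linarith
  have hε2 : 576 * ε ≤ γ := by
    have := hεl.trans ((min_le_right _ _).trans (min_le_left _ _))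
    linarith
  have hε3 : ε ≤ 1 / (8 * C) := hεe.trans (hεl.trans ((min_le_right _ _).trans (min_le_right _ _)))
  obtain ⟨S, hS1, hS2, hS3⟩ : ∃ S : ℕ, R * e ≤ S ∧ 8 * 3 ^ S < n ∧ n ≤ 3 ^ (S + 3) := by
    have h3 : 0 < 3 ^ (R * e) := by positivity
    have h1 : 3 ^ (R * e) ≤ (n - 1) / 8 := by omega
    refine ⟨Nat.log 3 ((n - 1) / 8), Nat.le_log_of_pow_le (by norm_num) h1, ?_, ?_⟩
    · have := Nat.pow_log_le_self 3 (show (n - 1) / 8 ≠ 0 by omega)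
      omega
    · have := Nat.lt_pow_succ_log_self (show 1 < 3 by norm_num) ((n - 1) / 8)
      rw [pow_succ] at this
      rw [pow_add]
      omega
  have hsc : ∀ r : ℕ, R * e ≤ r → 30 * (e : ℝ) ≤ γ * r ∧ 20 * e ≤ r := fun r hr => by
    have h1 : (R : ℝ) * e ≤ r := by exact_mod_cast hr
    have h2 := mul_le_mul_of_nonneg_left h1 hγ.le
    have h3 := mul_le_mul_of_nonneg_right hR (show (0 : ℝ) ≤ e by linarith)
    exact ⟨by linarith, (Nat.mul_le_mul_right e hR2).trans hr⟩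
  have hS0 : (0 : ℝ) ≤ S := Nat.cast_nonneg _
  have hinv : h0⁻¹ ≤ 3 ^ ((3 - 4 * γ) * S) := by
    have h1 := inv_anti₀ (Real.rpow_pos_of_pos hnpos _) hh0
    rw [← Real.rpow_neg hnpos.le] at h1
    have h2 : (n : ℝ) ≤ 3 ^ ((S : ℝ) + 3) := by
      have : (n : ℝ) ≤ 3 ^ (S + 3) := by exact_mod_cast hS3
      rw [p3n] at this
      push_cast at this
      exact this
    refine h1.trans ((Real.rpow_le_rpow hnpos.le h2 (by linarith)).trans ?_)
    rw [p3m]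
    refine p3 ?_
    have := (hsc S hS1).1
    have e8 : δ = 8 * γ := by linarith
    rw [e8]
    nlinarith
  have hsm := ground hh0pos hlam he0 (hsc S hS1).2 (hinv.trans (p3 (by nlinarith)))
  have key : ∀ r : ℕ, R * e ≤ r → r ≤ S →
      LBn (c (HH n lam o (3 ^ r) h)) (EE6 n N o (cube n o (3 ^ a)) (3 ^ r)) (GG6 n N o (3 ^ S))
        (3 ^ (γ * r)) →
      LBn (c h) (hatb N (cube n o (3 ^ a))) (GG6 n N o (3 ^ S)) (1 / (4 * C) * K) := by
    intro r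
    induction r using Nat.strong_induction_on with
    | _ r ih =>
      intro hr hrS hLB
      obtain ⟨s1, s2⟩ := hsc r hr
      have hl := loss hlam (show 10 * e ≤ r by omega) (by omega) hε
      by_cases h5 : r ≤ 5 * (R * e)
      · obtain ⟨a1, a2⟩ := last_num (A := 3 ^ (γ * r)) hC (by linarith) (by linarith) hK2 (by
          rw [p3n]
          exact p3 (by push_cast; linarith))
        have h6 := H3 n N W e K h0 lam ε o a h c r S _ hW hN hea (by omega) hrS hS2 hlam0 hsm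
          (by linarith) hK3 hK4 a1 a2 hloc hlow hfam hLB
        intro f hf hg
        refine le_trans ?_ (h6 f hf hg)
        have h7 : (1 / 2 : ℝ) ≤ 3 ^ (-(24 * ε * r)) := by
          have h8 : (r : ℝ) ≤ 5 * (R * e) := by exact_mod_cast h5
          have h9 := mul_le_mul_of_nonneg_left h8 hε
          refine le_trans ?_ (p3 (show -(1 / 2 : ℝ) ≤ _ by linarith))
          rw [Real.rpow_neg (by norm_num), ← Real.sqrt_eq_rpow, le_inv_comm₀ (by norm_num)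
            (by positivity), Real.sqrt_le_iff]
          norm_num
        have h1 := mul_le_mul_of_nonneg_right (h7.trans hl) (show 0 ≤ K / C by positivity)
        have h2 : 2 * ε ≤ K / (4 * C) := by
          calc 2 * ε ≤ 2 * (1 / (8 * C)) := by linarith
            _ = 1 / (4 * C) := by field_simp; norm_num
            _ ≤ K / (4 * C) := by gcongr
        have h3 : 1 / (4 * C) * K = 1 / 2 * (K / C) - K / (4 * C) := by field_simp; norm_num
        linarith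
      · obtain ⟨a1, a2, a3, a4⟩ := rung_num (r := r / 4) (r' := r) (e := e) hC2 (by linarith) hγ hγ1
          hε hε2 (by omega) (by omega) (by linarith)
        refine ih (r / 4) (by omega) (by omega) (by omega) fun f hf hg => ?_
        refine le_trans ?_ (H2 n N W e K h0 lam ε o _ h c (r / 4) r S _ _ hW hN (by omega)
          (by omega) hrS hS2 hlam0 hsm hloc hlow hfam (by positivity) a1 a2 a3 hLB f hf hg)
        have h1 := mul_le_mul_of_nonneg_right hl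
          (show (0 : ℝ) ≤ 3 ^ (γ * r / 3) / (1 + C2) by positivity)
        linarith
  have hfin := key S hS1 le_rfl fun f hf hg => le_trans
    (top_num hC1 (by linarith) hh0pos hγ hγ1 hinv hε (by linarith)
      (by linarith [(hsc S hS1).1]))
    (H1 n N W e K h0 lam ε o _ h c S hW hN (by have := (hsc S hS1).2; omega) hS2 hh0pos hh1
      hlam0.le hloc hlow hfam f hf hg)
  apply hfin
  · intro x hx
    simp [hx]
  · intro x hx
    have hx0 : x.1 ≠ 0 := by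
      simp only [GG6, mem_product, mem_filter, mem_univ, true_and] at hx
      exact hx.1
    have : x ∉ hatb N (cube n o (3 ^ a)) := by
      intro h
      simp only [hatb, mem_product, mem_singleton] at h
      exact hx0 h.1
    simp [this]

end Vale.Agent.N361
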