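import Vale.Agent.N361.Defs
import Vale.Agent.N361.Gauss
import Vale.Agent.N361.Boot

/-!
# Order in vanishing fields and the second moment in zero field
-/

set_option linter.all false

namespace Vale.Agent.N361

open Finset Matrix Filter Topology Vale.Agent.P361 Vale.Agent.P361.LRO Vale.Agent.P361S42
open Vale.Agent.P361.Model (Op siteOp)

noncomputable section

theorem tor_mag {δ : ℝ} (hδ : 0 < δ) (hδ1 : δ ≤ 1) (s : ℕ) (hs : 1 ≤ s) :
    ∃ C : ℝ, ∀ᶠ β : ℝ in atTop, ∀ᶠ N : ℕ in atTop, ∀ h ≥ (2 * N + 1 : ℝ) ^ (δ - 3),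
      (s / 2 - C * β ^ (-(3 / 2) : ℝ)) * (2 * N + 1) ^ 3 ≤
        gibbsMagV s (torusAdj (2 * N + 1)) β h := by
  obtain ⟨C7, β0, hC7, H⟩ := boot hδ hδ1 s hs
  refine ⟨s * C7, ?_⟩
  filter_upwards [eventually_ge_atTop β0, eventually_ge_atTop 1] with β hβ0 hβ1
  obtain ⟨n0, H⟩ := H β hβ0
  filter_upwards [eventually_ge_atTop n0, eventually_ge_atTop 1] with N hN0 hN1 h hh
  obtain ⟨M0, H⟩ := H (2 * N + 1) (by omega) ⟨N, rfl⟩
  have hsR : (1 : ℝ) ≤ s := by exact_mod_cast hs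
  have hβ : 0 < β := by linarith
  have hL : (1 : ℝ) ≤ 2 * N + 1 := by linarith [(Nat.cast_nonneg N : (0 : ℝ) ≤ N)]
  set g : ℝ := (2 * N + 1 : ℝ) ^ (δ - 3) with hg
  have hg0 : 0 < g := by positivity
  have hg1 : g ≤ 1 := Real.rpow_le_one_of_one_le_of_nonpos hL (by linarith)
  have h1 := S3S.gibbs_ge_of_rho hs hβ (h := g / (s * β)) (by positivity) (n := 2 * N + 1)
    (by omega) (r := s * (C7 * β ^ (-(3 / 2) : ℝ))) (M0 := M0) fun M hM z =>
      mul_le_mul_of_nonneg_left (H M hM g (by rw [hg]; push_cast; exact le_rfl) hg1 (fun _ => g)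
        (S3F.fam_const hg0.le hg1 (by positivity)) z) (by positivity)
  push_cast at h1
  rw [le_div_iff₀ (by positivity), ← mul_assoc] at h1
  refine h1.trans (mag_mono s _ (torusAdj_irrefl (by omega)) hβ (le_trans ?_ hh))
  exact div_le_self hg0.le (by nlinarith)

theorem ev_pow {η : ℝ} (hη : 0 < η) (B : ℝ) : ∀ᶠ N : ℕ in atTop, B ≤ (2 * N + 1 : ℝ) ^ η := by
  have h1 : Tendsto (fun N : ℕ => (2 * N + 1 : ℝ)) atTop atTop :=
    tendsto_atTop_add_const_right _ _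
      (Tendsto.const_mul_atTop (by norm_num) tendsto_natCast_atTop_atTop)
  exact ((tendsto_rpow_atTop hη).comp h1).eventually_ge_atTop B

/-- Nearest neighbours in the cube. -/
abbrev boxAdj (N : ℕ) (x y : Model.box N) : Prop := ∑ i, |x.1 i - y.1 i| = 1

theorem boxAdj_irrefl (N : ℕ) (x : Model.box N) : ¬ boxAdj N x x := by simp [boxAdj]

theorem free_mag {δ : ℝ} (hδ : 0 < δ) (s : ℕ) (hs : 1 ≤ s) :
    ∃ C : ℝ, ∀ᶠ β : ℝ in atTop, ∀ᶠ N : ℕ in atTop, ∀ h ≥ (2 * N + 1 : ℝ) ^ (δ - 1),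
      (s / 2 - C * β ^ (-(3 / 2) : ℝ)) * (2 * N + 1) ^ 3 ≤ gibbsMagV s (boxAdj N) β h := by
  obtain ⟨C, H⟩ := tor_mag one_pos le_rfl s hs
  obtain ⟨C0, hC0, Hc⟩ := pressTorus_sub_le s
  refine ⟨C + 1, ?_⟩
  filter_upwards [H, eventually_ge_atTop 1] with β H hβ1
  have hβ : 0 < β := by linarith
  filter_upwards [H, eventually_ge_atTop 1, ev_pow hδ (4 * C0 * β ^ (3 / 2 : ℝ))]
    with N H hN1 hN2 h hh
  have hN : (1 : ℝ) ≤ N := by exact_mod_cast hN1
  set L : ℝ := 2 * N + 1 with hLdef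
  have hL : 3 ≤ L := by linarith
  have hL0 : 0 < L := by linarith
  have hh0 : 0 < h := lt_of_lt_of_le (by positivity) hh
  have e1 : L ^ (δ - 1) = L ^ δ / L := by rw [Real.rpow_sub hL0, Real.rpow_one]
  have hδL : 1 ≤ L ^ δ := Real.one_le_rpow (by linarith) hδ.le
  have hhL : L ^ δ ≤ h * L := by rwa [ge_iff_le, e1, div_le_iff₀ hL0] at hh
  have h1 := H (h / 2) (by
    rw [show (1 : ℝ) - 3 = -2 by norm_num, Real.rpow_neg hL0.le, Real.rpow_two, ge_iff_le,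
      inv_le_iff_one_le_mul₀ (by positivity)]
    nlinarith)
  have h2 := pressTorus_support s N hN1 hβ (h / 2) h
  have h3 := abs_le.1 (Hc N hN1 β hβ (h / 2))
  have h4 := abs_le.1 (Hc N hN1 β hβ h)
  have hcard : ((Model.box N).card : ℝ) = L ^ 3 := by rw [card_boxM]; push_cast; ring
  have h5 : Model.finPressure s N β h + (h / 2 - h) * (gibbsMagV s (boxAdj N) β h / L ^ 3) ≤
      Model.finPressure s N β (h / 2) := by
    have h6 := mul_le_mul_of_nonneg_left (logTr_support s (boxAdj N) (boxAdj_irrefl N) β h (h / 2))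
      (a := (β * L ^ 3)⁻¹) (by positivity)
    unfold Model.finPressure
    rw [hcard]
    refine le_trans (le_of_eq ?_) h6
    field_simp
  rw [← hLdef] at h2 h3 h4
  rw [← le_div_iff₀ (by positivity)] at h1 ⊢
  have h7 : 4 * (C0 / L) ≤ h * β ^ (-(3 / 2) : ℝ) := by
    have hp : 0 < β ^ (3 / 2 : ℝ) := by positivity
    rw [Real.rpow_neg hβ.le, ← div_eq_mul_inv, ← mul_div_assoc, div_le_div_iff₀ hL0 hp]
    linarith
  refine le_of_mul_le_mul_left ?_ (half_pos hh0)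
  have h8 := mul_le_mul_of_nonneg_left h1 (half_pos hh0).le
  nlinarith

theorem sq_of_mag {V : Type} [Fintype V] [DecidableEq V] {s : ℕ} (J : V → V → Prop)
    [DecidableRel J] (hs : 1 ≤ s) (hJ : ∀ x, ¬ J x x) {β C L a η : ℝ} (hβ : 0 < β) (hL : 0 < L)
    (hC : C * β ^ (-(3 / 2) : ℝ) ≤ 1 / 4) (hη : 8 * β ≤ L ^ η)
    (H : (s / 2 - C * β ^ (-(3 / 2) : ℝ)) * L ^ 3 ≤ gibbsMagV s J β (L ^ a)) :
    L ^ (3 - a - η) ≤ sq0 s J β := by
  have hsR : (1 : ℝ) ≤ s := by exact_mod_cast hs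
  have h1 := H.trans (sq0_ge s J hs hJ hβ (Real.rpow_pos_of_pos hL a))
  have h2 : L ^ 3 = L ^ (3 - a - η) * L ^ a * L ^ η := by
    rw [← Real.rpow_add hL, ← Real.rpow_add hL, ← Real.rpow_natCast]
    congr 1
    push_cast
    ring
  have h3 : 0 < 2 * β * L ^ a := by positivity
  refine le_of_mul_le_mul_left (le_trans ?_ h1) h3
  have h4 : 0 < L ^ (3 - a - η) * L ^ a := by positivity
  have h5 := mul_le_mul_of_nonneg_left hη h4.le
  have h6 : (1 / 4 : ℝ) * L ^ 3 ≤ (s / 2 - C * β ^ (-(3 / 2) : ℝ)) * L ^ 3 :=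
    mul_le_mul_of_nonneg_right (by linarith) (by positivity)
  rw [← h2] at h5
  linarith

section Bridge

variable {n : ℕ} {V : Type} [Fintype V] [DecidableEq V]

theorem ham_gen (G : SimpleGraph V) (J : V → V → Prop) [DecidableRel J]
    (hJ : ∀ x y, J x y ↔ G.Adj x y) : ham (Model.spin n) G = Model.hamiltonian n J := by
  classical
  have b : ∀ x y : V, ∑ a, siteOp x (Model.spin n a) * siteOp y (Model.spin n a) =
      bond (Model.spin n) s(x, y) := fun _ _ => rfl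
  unfold ham Model.hamiltonian
  simp only [b]
  rw [← Fintype.sum_prod_type', ← Finset.sum_filter,
    Finset.sum_comp (bond (Model.spin n)) fun p : V × V => s(p.1, p.2), Finset.smul_sum]
  refine congrArg _ (Finset.sum_congr ?_ fun e he => ?_)
  · ext e
    induction e using Sym2.inductionOn with
    | hf x y =>
      simp only [SimpleGraph.mem_edgeFinset, SimpleGraph.mem_edgeSet, Finset.mem_image,
        Finset.mem_filter, Finset.mem_univ, true_and, hJ, Sym2.eq_iff]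
      refine ⟨fun h => ⟨(x, y), h, Or.inl ⟨rfl, rfl⟩⟩, ?_⟩
      rintro ⟨⟨u, v⟩, h, ⟨rfl, rfl⟩ | ⟨rfl, rfl⟩⟩
      · exact h
      · exact h.symm
  obtain ⟨⟨x, y⟩, h, rfl⟩ := Finset.mem_image.1 he
  have h1 : G.Adj x y := (hJ _ _).1 (Finset.mem_filter.1 h).2
  rw [Finset.card_eq_two.2 ⟨(x, y), (y, x), fun h => h1.ne (congrArg Prod.fst h), ?_⟩,
    ← Nat.cast_smul_eq_nsmul ℂ, smul_smul]
  · simp
  ext ⟨u, v⟩
  simp only [Finset.mem_filter, Finset.mem_univ, true_and, Sym2.eq_iff, Finset.mem_insert,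
    Finset.mem_singleton, Prod.mk.injEq, hJ]
  refine ⟨fun h => h.2, fun h => ⟨?_, h⟩⟩
  rcases h with ⟨rfl, rfl⟩ | ⟨rfl, rfl⟩
  · exact h1
  · exact h1.symm

theorem tr_gen {S : Fin 3 → Matrix (Fin (n + 1)) (Fin (n + 1)) ℂ} (hS : IsSpin ((n : ℝ) / 2) S)
    (G : SimpleGraph V) (J : V → V → Prop) [DecidableRel J] (hJ : ∀ x y, J x y ↔ G.Adj x y)
    (β h : ℝ) (k : ℕ) : (gibbs S G β h * mag S ^ k).trace =
      (NormedSpace.exp (expoV n J β h) * Model.magnetization n V ^ k).trace := by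
  obtain ⟨U, hU, a⟩ := conj hS
  have b : ∀ (x : V) c, SemiconjBy (kr fun _ => U) (siteOp x (Model.spin n c)) (siteOp x (S c)) :=
    fun x c => (kr_conj (a c) x).symm
  have c : ∀ e : Sym2 V, SemiconjBy (kr fun _ => U) (bond (Model.spin n) e) (bond S e) :=
    fun e => by
      induction e using Sym2.inductionOn with
      | hf x y => exact sc_sum Finset.univ fun c => (b x c).mul_right (b y c)
  have d : SemiconjBy (kr fun _ => U) (ham (Model.spin n) G) (ham S G) := (sc_sum _ c).neg_right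
  have e : SemiconjBy (kr fun _ : V => U) (mag (Model.spin n)) (mag S) := sc_sum _ fun x => b x 2
  have f := (d.sub_right (e.smul_right (h : ℂ))).smul_right (-(β : ℂ))
  have g := e.pow_right k
  rw [ham_gen G J hJ] at f
  obtain ⟨K, hK⟩ := kr_unit (V := V) hU
  rw [← hK] at f g
  rw [gibbs, ← (Units.mul_inv_eq_iff_eq_mul K).2 f.eq, Matrix.exp_units_conj,
    ← (Units.mul_inv_eq_iff_eq_mul K).2 g.eq, ← trace_units_conj K
      (NormedSpace.exp (expoV n J β h) * Model.magnetization n V ^ k)]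
  simp only [Matrix.mul_assoc, Units.inv_mul_cancel_left]
  rfl

theorem tr_gen0 {S : Fin 3 → Matrix (Fin (n + 1)) (Fin (n + 1)) ℂ} (hS : IsSpin ((n : ℝ) / 2) S)
    (G : SimpleGraph V) (J : V → V → Prop) [DecidableRel J] (hJ : ∀ x y, J x y ↔ G.Adj x y)
    (β h : ℝ) : (gibbs S G β h).trace = (NormedSpace.exp (expoV n J β h)).trace := by
  simpa only [pow_zero, Matrix.mul_one] using tr_gen hS G J hJ β h 0

theorem tr_real (J : V → V → Prop) [DecidableRel J] (hJ : ∀ x, ¬ J x x) (β h : ℝ) :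
    (NormedSpace.exp (expoV n J β h)).trace.im = 0 := by
  have h1 := (expoV_isHermitian n J hJ β h).exp
  have h2 := Matrix.trace_conjTranspose (NormedSpace.exp (expoV n J β h))
  rw [h1.eq] at h2
  exact Complex.conj_eq_iff_im.1 h2.symm

theorem moment_gen {S : Fin 3 → Matrix (Fin (n + 1)) (Fin (n + 1)) ℂ}
    (hS : IsSpin ((n : ℝ) / 2) S)
    (G : SimpleGraph V) (J : V → V → Prop) [DecidableRel J] (hJ : ∀ x y, J x y ↔ G.Adj x y)
    (β h : ℝ) : moment S G β h 1 = gibbsMagV n J β h ∧ moment S G β 0 2 = sq0 n J β := by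
  have hi : ∀ x, ¬ J x x := fun x hx => ((hJ x x).1 hx).ne rfl
  have k : ∀ h (z : ℂ), (z / (NormedSpace.exp (expoV n J β h)).trace).re =
      z.re / (NormedSpace.exp (expoV n J β h)).trace.re := fun h z => by
    rw [← Complex.div_ofReal_re]
    congr 2
    exact Complex.ext rfl (tr_real J hi β h)
  unfold moment partition
  rw [tr_gen hS G J hJ, tr_gen hS G J hJ, tr_gen0 hS G J hJ, tr_gen0 hS G J hJ, k, k, pow_one, sq]
  exact ⟨rfl, rfl⟩

theorem cube_adj (N : ℕ) (x y : Model.box N) : boxAdj N x y ↔ (cube N).Adj x y := by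
  rw [cube, SimpleGraph.fromRel_adj]
  refine ⟨fun h => ⟨?_, Or.inl h⟩, ?_⟩
  · rintro rfl
    exact boxAdj_irrefl N x h
  · rintro ⟨-, h | h⟩
    · exact h
    · simpa only [boxAdj, abs_sub_comm] using h

theorem torus_adj {L : ℕ} (hL : 1 < L) (x y : Fin 3 → ZMod L) :
    torusAdj L x y ↔ (torus L).Adj x y := by
  rw [torus, SimpleGraph.fromRel_adj]
  have k : ∀ (x y : Fin 3 → ZMod L) i,
      y = x + Pi.single i 1 ↔ y i = x i + 1 ∧ ∀ j, j ≠ i → y j = x j := fun x y i => by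
    refine ⟨?_, fun h => funext fun j => ?_⟩
    · rintro rfl
      exact ⟨by simp, fun j hj => by simp [hj]⟩
    · by_cases hj : j = i
      · subst hj
        simp [h.1]
      · simp [hj, h.2 j hj]
  refine ⟨fun h => ⟨?_, ?_⟩, ?_⟩
  · rintro rfl
    exact torusAdj_irrefl hL x h
  · obtain ⟨i, h | h, h'⟩ := h
    · exact Or.inr ⟨i, (k _ _ _).2 ⟨h, h'⟩⟩
    · exact Or.inl ⟨i, (k _ _ _).2 ⟨h, fun j hj => (h' j hj).symm⟩⟩
  · rintro ⟨-, ⟨i, h⟩ | ⟨i, h⟩⟩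
    · rw [k] at h
      exact ⟨i, Or.inr h.1, fun j hj => (h.2 j hj).symm⟩
    · rw [k] at h
      exact ⟨i, Or.inl h.1, h.2⟩

end Bridge

theorem order {n : ℕ} (hn : 1 ≤ n) {S : Fin 3 → Matrix (Fin (n + 1)) (Fin (n + 1)) ℂ}
    (hS : IsSpin ((n : ℝ) / 2) S) {δ : ℝ} (hδ : 0 < δ) :
    ∃ C : ℝ, ∀ᶠ β : ℝ in atTop, ∀ᶠ N : ℕ in atTop,
      (∀ h ≥ (2 * N + 1 : ℝ) ^ (δ - 3), (n / 2 - C * β ^ (-(3 / 2) : ℝ)) * (2 * N + 1) ^ 3 ≤
        moment S (torus (2 * N + 1)) β h 1) ∧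
      (2 * N + 1 : ℝ) ^ (6 - δ) ≤ moment S (torus (2 * N + 1)) β 0 2 ∧
      (∀ h ≥ (2 * N + 1 : ℝ) ^ (δ - 1), (n / 2 - C * β ^ (-(3 / 2) : ℝ)) * (2 * N + 1) ^ 3 ≤
        moment S (cube N) β h 1) ∧
      (2 * N + 1 : ℝ) ^ (4 - δ) ≤ moment S (cube N) β 0 2 := by
  obtain ⟨η, η0, η1, η2⟩ : ∃ η : ℝ, 0 < η ∧ η ≤ 1 ∧ 2 * η ≤ δ :=
    ⟨min 1 (δ / 2), lt_min one_pos (half_pos hδ), min_le_left _ _,
      by linarith [min_le_right 1 (δ / 2)]⟩
  obtain ⟨C1, H1⟩ := tor_mag η0 η1 n hn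
  obtain ⟨C2, H2⟩ := free_mag η0 n hn
  have e1 : ∀ C : ℝ, ∀ᶠ β : ℝ in atTop, C * β ^ (-(3 / 2) : ℝ) ≤ 1 / 4 := fun C => by
    have h1 := (tendsto_rpow_neg_atTop (by norm_num : (0 : ℝ) < 3 / 2)).const_mul C
    rw [mul_zero] at h1
    exact h1.eventually_le_const (by norm_num)
  refine ⟨max C1 C2, ?_⟩
  filter_upwards [H1, H2, e1 C1, e1 C2, eventually_gt_atTop 0] with β H1 H2 c1 c2 hβ
  filter_upwards [H1, H2, ev_pow η0 (8 * β), eventually_ge_atTop 1] with N H1 H2 h8 hN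
  have hL : (1 : ℝ) ≤ 2 * N + 1 := by linarith [(Nat.cast_nonneg N : (0 : ℝ) ≤ N)]
  have mono : ∀ {a b : ℝ}, a ≤ b → (2 * N + 1 : ℝ) ^ a ≤ (2 * N + 1 : ℝ) ^ b := fun h =>
    Real.rpow_le_rpow_of_exponent_le hL h
  have mc : ∀ C ≤ max C1 C2, (n / 2 - max C1 C2 * β ^ (-(3 / 2) : ℝ)) * (2 * N + 1 : ℝ) ^ 3 ≤
      (n / 2 - C * β ^ (-(3 / 2) : ℝ)) * (2 * N + 1 : ℝ) ^ 3 := fun C hC => by gcongr
  have t := moment_gen hS _ _ (torus_adj (L := 2 * N + 1) (by omega)) β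
  have c := moment_gen hS _ _ (cube_adj N) β
  refine ⟨fun h hh => ?_, ?_, fun h hh => ?_, ?_⟩
  · rw [(t h).1]
    exact (mc _ (le_max_left _ _)).trans (H1 h ((mono (by linarith)).trans hh))
  · rw [(t 0).2]
    exact (mono (by linarith)).trans (sq_of_mag _ hn (torusAdj_irrefl (by omega)) hβ (by linarith)
      c1 h8 (H1 _ le_rfl))
  · rw [(c h).1]
    exact (mc _ (le_max_right _ _)).trans (H2 h ((mono (by linarith)).trans hh))
  · rw [(c 0).2]
    exact (mono (by linarith)).trans (sq_of_mag _ hn (boxAdj_irrefl N) hβ (by linarith)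
      c2 h8 (H2 _ le_rfl))

theorem part_eq {n : ℕ} {S : Fin 3 → Matrix (Fin (n + 1)) (Fin (n + 1)) ℂ}
    (hS : IsSpin ((n : ℝ) / 2) S) (N : ℕ) (β h : ℝ) :
    partition S (cube N) β h = partFn S N β h := by
  rw [partition, tr_gen0 hS _ _ (cube_adj N), partFn_eq hS, partFn, ham_std]
  rfl

end

end Vale.Agent.N361
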